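import Vale.Agent.P120.Sums.Height
import Mathlib.MeasureTheory.Integral.Bochner.ContinuousLinearMap
import Mathlib.Algebra.Order.Chebyshev

/-!
# P120: boundedness bounds the heights to the first power by the root of the square sum
-/

open MeasureTheory Metric Finset
open scoped ENNReal RealInnerProductSpace NNReal

namespace Vale.Agent.P120

open Sums

variable {n d : ℕ}

section

variable {μ : Measure (Sp d)} {C₀ r₀ : ℝ} {x₀ : Sp d} {K : ℕ}

/-- Sums over ancestors, paired with all nearby earlier cells. -/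
private lemma pairSum_anc (hreg : Reg n C₀ μ) (T : Tree μ x₀ r₀ K) (hr : 0 < r₀)
    (hd : ENNReal.ofReal r₀ ≤ Metric.ediam μ.support) {a : ℝ} (ha : 2 ≤ a) (f : ℕ → Sp d → ℝ)
    (hf : ∀ k z, 0 ≤ f k z) :
    pairSum n T a (fun k z k' _ => ∑ i ∈ range (k - k' + 1), f (k - i) (T.anc k z i)) ≤
      8 * (C₀ ^ 2 * 2 ^ n * (a + 1) ^ n) ^ 2 *
        ∑ k ∈ range (K + 1), ∑ z ∈ T.net k, f k z * sc r₀ k ^ n := by
  classical
  set N := C₀ ^ 2 * 2 ^ n * (a + 1) ^ n with hN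
  have hN0 : 0 ≤ N := by positivity
  refine le_trans ?_ (le_of_le_of_eq (mul_le_mul_of_nonneg_left
    ((anc_le_pairSum T hr f hf ha).trans (schur hreg T hr hd (by linarith) f hf))
    (by positivity : 0 ≤ 2 * N)) (by ring))
  rw [mul_sum]
  refine sum_le_sum fun k hk => ?_
  have hk : k ≤ K := Nat.le_of_lt_succ (mem_range.1 hk)
  rw [mul_sum]
  refine sum_le_sum fun z _ => ?_
  set F : ℕ → ℝ := fun i => f (k - i) (T.anc k z i) * sc r₀ k ^ n with hF
  have hF0 : ∀ i, 0 ≤ F i := fun i => mul_nonneg (hf _ _) (pow_pos (sc_pos hr k) n).le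
  calc (∑ k' ∈ range (k + 1), ∑ w ∈ T.net k' with dist z w ≤ a * sc r₀ k',
        ((1 : ℝ) / 4) ^ (k - k') *
          ((∑ i ∈ range (k - k' + 1), f (k - i) (T.anc k z i)) * sc r₀ k ^ n))
      ≤ ∑ k' ∈ range (k + 1), N * (((1 : ℝ) / 4) ^ (k - k') * ∑ i ∈ range (k - k' + 1), F i) := by
        refine sum_le_sum fun k' hk' => ?_
        rw [sum_const, nsmul_eq_mul, sum_mul]
        refine mul_le_mul_of_nonneg_right ?_
          (mul_nonneg (by positivity) (sum_nonneg fun i _ => hF0 i))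
        simp only [dist_comm z]
        exact count_up hreg T hr hd ((Nat.le_of_lt_succ (mem_range.1 hk')).trans hk) z (by linarith)
    _ = N * ∑ l ∈ range (k + 1), ∑ i ∈ range (l + 1), ((1 : ℝ) / 4) ^ l * F i := by
        rw [← sum_range_reflect (fun l => ∑ i ∈ range (l + 1), ((1 : ℝ) / 4) ^ l * F i), mul_sum]
        simp only [Nat.add_sub_cancel, ← mul_sum]
    _ = N * ∑ i ∈ range (k + 1), (∑ l ∈ Ico i (k + 1), ((1 : ℝ) / 4) ^ l) * F i := by
        rw [sum_comm' (t' := range (k + 1)) (s' := fun i => Ico i (k + 1))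
          (fun l i => by simp only [mem_range, mem_Ico]; omega)]
        simp only [sum_mul]
    _ ≤ N * ∑ i ∈ range (k + 1), 2 * (((1 : ℝ) / 4) ^ i * F i) := by
        refine mul_le_mul_of_nonneg_left (sum_le_sum fun i _ => ?_) hN0
        rw [← mul_assoc (2 : ℝ)]
        refine mul_le_mul_of_nonneg_right ?_ (hF0 i)
        rw [sum_Ico_eq_sum_range]
        simp only [pow_add, ← mul_sum]
        rw [mul_comm (2 : ℝ)]
        exact mul_le_mul_of_nonneg_left (sum_geom_le _) (by positivity)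
    _ = _ := by rw [← mul_sum, hF]; ring

/-- The squares on the small balls inside a large one, paired with all smaller cells. -/
private lemma pairSum_overlap (hreg : Reg n C₀ μ) (T : Tree μ x₀ r₀ K) (hr : 0 < r₀)
    (hd : ENNReal.ofReal r₀ ≤ Metric.ediam μ.support) {a : ℝ} (u : ℕ → Sp d → Sp d → ℝ)
    (hu : ∀ k z, IntegrableOn (u k z) (ball z (cellRad r₀ k)) μ) (h0 : ∀ k z y, 0 ≤ u k z y) :
    pairSum n T a (fun k z k' w => ((1 : ℝ) / 2) ^ (k - k') *
        (∫ y in ball z (cellRad r₀ k) ∩ ball w (cellRad r₀ k'), u k' w y ∂μ) / sc r₀ k ^ n) ≤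
      2 * (C₀ ^ 2 * 2 ^ n * 17 ^ n) *
        ∑ k ∈ range (K + 1), ∑ z ∈ T.net k, ∫ y in ball z (cellRad r₀ k), u k z y ∂μ := by
  classical
  set N := C₀ ^ 2 * 2 ^ n * 17 ^ n with hN
  have hN0 : 0 ≤ N := by positivity
  set J : ℕ → Sp d → ℝ := fun k w => ∫ y in ball w (cellRad r₀ k), u k w y ∂μ with hJ
  have hJ0 : ∀ k w, 0 ≤ J k w := fun k w => integral_nonneg fun y => h0 k w y
  have hsw : ∀ k ≤ K, (∑ z ∈ T.net k, ∑ k' ∈ range (k + 1),
      ∑ w ∈ T.net k' with dist z w ≤ a * sc r₀ k', ((1 : ℝ) / 4) ^ (k - k') *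
        (((1 : ℝ) / 2) ^ (k - k') * (∫ y in ball z (cellRad r₀ k) ∩ ball w (cellRad r₀ k'),
          u k' w y ∂μ) / sc r₀ k ^ n * sc r₀ k ^ n)) ≤
      ∑ k' ∈ range (k + 1), ∑ w ∈ T.net k', ((1 : ℝ) / 8) ^ (k - k') * (N * J k' w) := by
    intro k hk
    rw [sum_comm]
    refine sum_le_sum fun k' _ => ?_
    refine (sum_le_sum fun z _ => sum_le_sum_of_subset_of_nonneg (filter_subset _ _)
      fun w _ _ => ?_).trans ?_
    · rw [div_mul_cancel₀ _ (pow_pos (sc_pos hr k) n).ne']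
      exact mul_nonneg (by positivity) (mul_nonneg (by positivity)
        (integral_nonneg fun y => h0 k' w y))
    rw [sum_comm]
    refine sum_le_sum fun w _ => ?_
    simp only [div_mul_cancel₀ _ (pow_pos (sc_pos hr k) n).ne', ← mul_assoc, ← mul_pow,
      ← mul_sum, show (1 : ℝ) / 4 * (1 / 2) = 1 / 8 by norm_num]
    rw [mul_assoc]
    refine mul_le_mul_of_nonneg_left ?_ (by positivity)
    have hm : ∀ z : Sp d, MeasurableSet (ball z (cellRad r₀ k)) := fun z => measurableSet_ball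
    simp only [← setIntegral_indicator (hm _), Set.inter_comm (ball _ (cellRad r₀ k))]
    rw [← integral_finsetSum _ fun z _ => (hu k' w).indicator (hm z)]
    simp only [hJ, ← integral_const_mul N]
    refine setIntegral_mono_on (integrable_finsetSum _ fun z _ => (hu k' w).indicator (hm z))
      ((hu k' w).const_mul N) measurableSet_ball fun y _ => ?_
    simp only [Set.indicator_apply]
    rw [← sum_filter, sum_const, nsmul_eq_mul]
    refine mul_le_mul_of_nonneg_right ?_ (h0 k' w y)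
    refine le_trans (Nat.cast_le.2 (card_le_card ?_))
      ((count_up hreg T hr hd hk y (a := 16) (by norm_num)).trans (le_of_eq (by rw [hN]; norm_num)))
    intro z hz
    rw [mem_filter, mem_ball, cellRad_eq] at hz
    rw [mem_filter, dist_comm]
    exact ⟨hz.1, hz.2.le⟩
  unfold pairSum
  refine (sum_le_sum fun k hk => hsw k (Nat.le_of_lt_succ (mem_range.1 hk))).trans ?_
  simp only [← mul_sum]
  rw [sum_comm' (t' := range (K + 1)) (s' := fun k' => Ico k' (K + 1))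
    (fun k k' => by simp only [mem_range, mem_Ico]; omega), mul_sum]
  refine sum_le_sum fun k' hk' => ?_
  rw [← sum_mul, sum_Ico_eq_sum_range]
  simp only [Nat.add_sub_cancel_left]
  rw [mul_assoc (2 : ℝ)]
  refine mul_le_mul_of_nonneg_right ((sum_le_sum fun i _ => ?_).trans (sum_geom_le _))
    (mul_nonneg hN0 (sum_nonneg fun w _ => hJ0 _ w))
  exact pow_le_pow_left₀ (by norm_num) (by norm_num) i

/-- The square of a tangential part, damped. -/
private lemma tau_sq (l : ℕ) (g : ℕ → ℝ) {gw τ Ct : ℝ} (hτ0 : 0 ≤ τ)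
    (hτ : τ ≤ Ct * (gw + ∑ i ∈ range l, g (i + 1))) :
    ((1 : ℝ) / 2) ^ l * τ ^ 2 ≤ 2 * Ct ^ 2 * (gw ^ 2 + ∑ i ∈ range (l + 1), g i ^ 2) := by
  have h1 := pow_le_pow_left₀ hτ0 hτ 2
  rw [mul_pow] at h1
  have hc := sq_sum_le_card_mul_sum_sq (s := range l) (f := fun i => g (i + 1))
  rw [card_range] at hc
  have h2 : ∑ i ∈ range l, g (i + 1) ^ 2 ≤ ∑ i ∈ range (l + 1), g i ^ 2 := by
    rw [sum_range_succ' (fun i => g i ^ 2)]; exact le_add_of_nonneg_right (sq_nonneg _)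
  have hg : 0 ≤ ∑ i ∈ range l, g (i + 1) ^ 2 := sum_nonneg fun i _ => sq_nonneg _
  have hp : (0 : ℝ) ≤ (1 / 2) ^ l := by positivity
  have hl2 : ((1 : ℝ) / 2) ^ l * l ≤ 1 := by
    rw [one_div_pow, div_mul_eq_mul_div, one_mul, div_le_one (by positivity)]
    exact_mod_cast Nat.lt_two_pow_self.le
  have hl1 : ((1 : ℝ) / 2) ^ l ≤ 1 := pow_le_one₀ (by norm_num) (by norm_num)
  have h3 : (gw + ∑ i ∈ range l, g (i + 1)) ^ 2 ≤
      2 * (gw ^ 2 + l * ∑ i ∈ range l, g (i + 1) ^ 2) := by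
    nlinarith [sq_nonneg (gw - ∑ i ∈ range l, g (i + 1))]
  have h4 := mul_le_mul_of_nonneg_left h1 hp
  have h5 := mul_le_mul_of_nonneg_left h3 (mul_nonneg hp (sq_nonneg Ct))
  have h6 : ((1 : ℝ) / 2) ^ l * (gw ^ 2 + l * ∑ i ∈ range l, g (i + 1) ^ 2) ≤
      gw ^ 2 + ∑ i ∈ range (l + 1), g i ^ 2 := by
    rw [mul_add, ← mul_assoc]
    exact add_le_add (mul_le_of_le_one_left (sq_nonneg _) hl1)
      ((mul_le_of_le_one_left hg hl2).trans h2)
  have h7 := mul_le_mul_of_nonneg_left h6 (by positivity : 0 ≤ 2 * Ct ^ 2)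
  linarith

/-- The terms of a cross pairing collected. -/
private lemma cross_algebra {l : ℕ} {α C b Ct P X t c s Rn f g A : ℝ} (hα : 0 ≤ α) (hC : 0 ≤ C)
    (hc : 0 < c) (hs : 0 < s) (hf : 0 ≤ f) (hR : Rn = c * s) (hP0 : 0 ≤ P)
    (hP : P ≤ b ^ 2 * c * (f * s)) (ht : ((1 : ℝ) / 2) ^ l * t ≤ 2 * Ct ^ 2 * (g + A))
    (hgA : 0 ≤ g + A) :
    ((1 : ℝ) / 8) ^ l * (α * P + C * Rn * t + 4 * X) ≤
      ((1 : ℝ) / 4) ^ l * ((c * (α * b ^ 2 + C * (2 * Ct ^ 2)) * (f + g + A) +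
        4 * (((1 : ℝ) / 2) ^ l * X / s)) * s) := by
  have hh : ((1 : ℝ) / 8) ^ l = (1 / 4) ^ l * (1 / 2) ^ l := by rw [← mul_pow]; norm_num
  rw [hh, mul_assoc, add_mul _ _ s, mul_assoc 4 _ s, div_mul_cancel₀ _ hs.ne']
  refine mul_le_mul_of_nonneg_left ?_ (by positivity)
  have hl1 : ((1 : ℝ) / 2) ^ l ≤ 1 := pow_le_one₀ (by norm_num) (by norm_num)
  have a1 := mul_le_mul_of_nonneg_left ((mul_le_of_le_one_left hP0 hl1).trans hP) hα
  have a2 := mul_le_mul_of_nonneg_left ht (mul_nonneg hC (mul_nonneg hc.le hs.le))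
  have b1 : 0 ≤ c * α * b ^ 2 * s * (g + A) := by positivity
  have b2 : 0 ≤ c * C * (2 * Ct ^ 2) * s * f := by positivity
  rw [hR]
  linarith

private lemma cellRad_pow (r₀ : ℝ) (k : ℕ) : cellRad r₀ k ^ n = 16 ^ n * sc r₀ k ^ n := by
  rw [cellRad_eq, mul_pow]

variable [IsLocallyFiniteMeasure μ] {p : Sp d} {R s : ℝ} {e : Sp d}

private lemma height_field (hreg : Reg n C₀ μ) (hp : p ∈ μ.support) (hR : 0 < R) (he : ‖e‖ ≤ 1)
    (hs : |s| ≤ 1) :
    (∀ y, R ≤ dist y p → (s * height μ p R e y) • e = 0) ∧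
      (∀ y, ‖(s * height μ p R e y) • e‖ ≤ 2) ∧
      LipschitzWith (Real.toNNReal (17 / R)) (fun y => (s * height μ p R e y) • e) ∧
      ∫ y, (s * height μ p R e y) • e ∂μ = 0 := by
  refine ⟨fun y hy => by simp [height_eq_zero hR hy], fun y => ?_,
    LipschitzWith.of_dist_le_mul fun y y' => ?_, ?_⟩
  · rw [norm_smul, Real.norm_eq_abs, abs_mul]
    refine (mul_le_of_le_one_right (by positivity) he).trans ?_
    exact (mul_le_of_le_one_left (abs_nonneg _) hs).trans (abs_height_le hreg hp hR he y)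
  · rw [dist_eq_norm, ← sub_smul, norm_smul, Real.norm_eq_abs, ← mul_sub, abs_mul,
      Real.coe_toNNReal _ (by positivity)]
    refine (mul_le_of_le_one_right (by positivity) he).trans ?_
    exact (mul_le_of_le_one_left (abs_nonneg _) hs).trans (lipschitz_height hreg hp hR he y y')
  · rw [integral_smul_const, integral_const_mul, integral_height hreg hp hR, mul_zero, zero_smul]

variable [Nonempty (Plane n d)]

private lemma select (hp : PairSpec n d) (hreg : Reg n C₀ μ) :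
    ∃ C : ℝ, 0 ≤ C ∧ ∀ p ∈ μ.support, ∀ R : ℝ, 0 < R → 0 ≤ aT n μ p R ∧ aT n μ p R ≤ C ∧
      ∃ e s, Sel n μ p R e ∧ |s| ≤ 1 ∧
        aT n μ p R * R ^ n ≤ 2 * pair n μ p R (fun y => (s * height μ p R e y) • e) := by
  obtain ⟨Cp, hCp, hpb⟩ := (hp μ C₀ hreg).1
  refine ⟨19 * Cp, by positivity, fun p hpm R hR => ?_⟩
  have hzero : pair n μ p R (fun y => ((0 : ℝ) * height μ p R 0 y) • (0 : Sp d)) = 0 := by
    simp [pair]
  by_cases hd : ENNReal.ofReal R ≤ Metric.ediam μ.support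
  swap
  · have h : aT n μ p R = 0 := by rw [aT, if_neg hd]
    exact ⟨h.ge, h.le.trans (by positivity), 0, 0, Or.inl rfl, by simp,
      by rw [h, hzero]; simp⟩
  set S := {t | ∃ e ∈ (bestPlane (n := n) μ p R).normals,
    t = |pair n μ p R (fun y => height μ p R e y • e)| / R ^ n} with hS
  have hval : aT n μ p R = sSup S := by rw [aT, if_pos hd]
  have hub : ∀ t ∈ S, t ≤ 19 * Cp := by
    rintro t ⟨e, he, rfl⟩
    obtain ⟨h1, h2, h3, h4⟩ := height_field (s := 1) hreg hpm hR he.1.le (by simp)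
    simp only [one_mul] at h1 h2 h3 h4
    rw [div_le_iff₀ (pow_pos hR n)]
    refine (hpb p hpm R 2 _ _ hR h1 h2 h3 h4).trans (le_of_eq ?_)
    rw [Real.coe_toNNReal _ (by positivity)]
    field_simp
    ring
  have hS0 : 0 ≤ sSup S := Real.sSup_nonneg fun t ⟨e, _, ht⟩ => by rw [ht]; positivity
  rw [hval]
  refine ⟨hS0, Real.sSup_le hub (by positivity), ?_⟩
  rcases hS0.eq_or_lt with he | hlt
  · exact ⟨0, 0, Or.inl rfl, by simp, by rw [hzero, ← he]; simp⟩
  have hne : S.Nonempty := by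
    by_contra h
    rw [Set.not_nonempty_iff_eq_empty] at h
    simp [h] at hlt
  obtain ⟨t, ⟨e, he, rfl⟩, ht⟩ := exists_lt_of_lt_csSup hne (half_lt_self hlt)
  set P := pair n μ p R (fun y => height μ p R e y • e) with hP
  refine ⟨e, if 0 ≤ P then 1 else -1, Or.inr ⟨hd, he⟩, by split <;> simp, ?_⟩
  simp only [mul_smul]
  rw [pair_smul, ← hP]
  have h1 : (if 0 ≤ P then (1 : ℝ) else -1) * P = |P| := by
    split
    next h => rw [one_mul, abs_of_nonneg h]
    next h => rw [abs_of_neg (not_le.1 h)]; ring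
  rw [h1]
  rw [lt_div_iff₀ (pow_pos hR n)] at ht
  linarith

private lemma flat_cell (hpl : PlaneSpec n d) (hreg : Reg n C₀ μ) {Cb : ℝ}
    (hgeo : ∀ (x₀ : Sp d), x₀ ∈ μ.support → ∀ (r₀ : ℝ), 0 < r₀ → ∀ (K : ℕ)
      (T : Tree μ x₀ r₀ K), ∀ k ≤ K, ∀ z ∈ T.net k, 0 ≤ cellGeo n T k z ∧ ∀ j ≤ 1,
        flatness n μ (T.anc k z j) (cellRad r₀ k * 8 ^ j) ≤ Cb * cellGeo n T k z)
    (hx : x₀ ∈ μ.support) (hr : 0 < r₀) (T : Tree μ x₀ r₀ K) :
    ∀ k ≤ K, ∀ z ∈ T.net k, flatness n μ z (cellRad r₀ k) ^ 2 * cellRad r₀ k ^ n ≤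
      Cb ^ 2 * 16 ^ n * (cellGeo n T k z ^ 2 * sc r₀ k ^ n) := by
  intro k hk z hz
  have h := (hgeo x₀ hx r₀ hr K T k hk z hz).2 0 zero_le_one
  rw [T.anc_zero, pow_zero, mul_one] at h
  obtain ⟨Cf, hCf⟩ := (hpl μ C₀ hreg).2.1
  refine (mul_le_mul_of_nonneg_right (pow_le_pow_left₀
    (hCf z (T.mem k hk z hz) _ (cellRad_pos hr k)).1 h 2)
    (pow_pos (cellRad_pos hr k) n).le).trans (le_of_eq ?_)
  rw [cellRad_eq, mul_pow, mul_pow]
  ring

private lemma slope_cell (hpl : PlaneSpec n d) (hreg : Reg n C₀ μ) {Cb : ℝ}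
    (hgeo : ∀ (x₀ : Sp d), x₀ ∈ μ.support → ∀ (r₀ : ℝ), 0 < r₀ → ∀ (K : ℕ)
      (T : Tree μ x₀ r₀ K), ∀ k ≤ K, ∀ z ∈ T.net k, 0 ≤ cellGeo n T k z ∧ ∀ j ≤ 1,
        flatness n μ (T.anc k z j) (cellRad r₀ k * 8 ^ j) ≤ Cb * cellGeo n T k z)
    (hx : x₀ ∈ μ.support) (hr : 0 < r₀) (T : Tree μ x₀ r₀ K)
    (e : ℕ → Sp d → Sp d) (s : ℕ → Sp d → ℝ)
    (hes : ∀ k ≤ K, ∀ z ∈ T.net k, Sel n μ z (cellRad r₀ k) (e k z) ∧ |s k z| ≤ 1) :
    ∀ k ≤ K, ∀ z ∈ T.net k,
      ∫ y in ball z (cellRad r₀ k), slope μ z (cellRad r₀ k) (e k z) y ^ 2 ∂μ ≤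
        (2 + 2 * C₀ ^ 2 * 2 ^ n) * Cb ^ 2 * 16 ^ n * (cellGeo n T k z ^ 2 * sc r₀ k ^ n) :=
  fun k hk z hz => by
  have hC : 0 < C₀ := lt_of_lt_of_le one_pos hreg.one_le
  rw [mul_assoc (2 + 2 * C₀ ^ 2 * 2 ^ n), mul_assoc (2 + 2 * C₀ ^ 2 * 2 ^ n)]
  exact (slope_sq_le hpl hreg (cellRad_pos hr k) (T.mem k hk z hz) (hes k hk z hz).1).trans
    (mul_le_mul_of_nonneg_left (flat_cell hpl hreg hgeo hx hr T k hk z hz) (by positivity))

private lemma pair_bound (hpl : PlaneSpec n d) (hreg : Reg n C₀ μ) {Cb Ct : ℝ}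
    (hgeo : ∀ (x₀ : Sp d), x₀ ∈ μ.support → ∀ (r₀ : ℝ), 0 < r₀ → ∀ (K : ℕ)
      (T : Tree μ x₀ r₀ K), ∀ k ≤ K, ∀ z ∈ T.net k, 0 ≤ cellGeo n T k z ∧ ∀ j ≤ 1,
        flatness n μ (T.anc k z j) (cellRad r₀ k * 8 ^ j) ≤ Cb * cellGeo n T k z)
    (htang : ∀ (x₀ : Sp d), x₀ ∈ μ.support → ∀ (r₀ : ℝ), 0 < r₀ →
      ∀ (K : ℕ) (T : Tree μ x₀ r₀ K), ∀ k ≤ K, ∀ z ∈ T.net k, ∀ k' ≤ k, ∀ w ∈ T.net k',
        dist z w ≤ 32 * sc r₀ k' → ∀ e : Sp d, ‖e‖ ≤ 1 →
          proj (cellPlane n μ r₀ k' w) e = 0 →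
          ‖proj (cellPlane n μ r₀ k z) e‖ ≤ Ct * (cellGeo n T k' w +
            ∑ i ∈ range (k - k'), cellGeo n T (k - (i + 1)) (T.anc k z (i + 1))))
    (hx : x₀ ∈ μ.support) (hr : 0 < r₀) (T : Tree μ x₀ r₀ K)
    (e : ℕ → Sp d → Sp d) (s : ℕ → Sp d → ℝ)
    (hes : ∀ k ≤ K, ∀ z ∈ T.net k, Sel n μ z (cellRad r₀ k) (e k z) ∧ |s k z| ≤ 1)
    {k k' : ℕ} {z w : Sp d} (hk : k ≤ K) (hz : z ∈ T.net k) (hk' : k' ≤ k) (hw : w ∈ T.net k')
    (hzw : dist z w ≤ 2 * 16 * sc r₀ k') :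
    |∫ y, ⟪(s k z * height μ z (cellRad r₀ k) (e k z) y) • e k z,
        (s k' w * height μ w (cellRad r₀ k') (e k' w) y) • e k' w⟫ ∂μ| ≤
      ((1 : ℝ) / 4) ^ (k - k') *
        ((16 ^ n * ((13 + 12 * C₀ ^ 2 * 2 ^ n) * Cb ^ 2 + C₀ * (2 * Ct ^ 2)) *
            (cellGeo n T k z ^ 2 + cellGeo n T k' w ^ 2 +
              ∑ i ∈ range (k - k' + 1), cellGeo n T (k - i) (T.anc k z i) ^ 2) +
          4 * (((1 : ℝ) / 2) ^ (k - k') * (∫ y in ball z (cellRad r₀ k) ∩ ball w (cellRad r₀ k'),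
            slope μ w (cellRad r₀ k') (e k' w) y ^ 2 ∂μ) / sc r₀ k ^ n)) * sc r₀ k ^ n) := by
  classical
  have hC : 0 < C₀ := lt_of_lt_of_le one_pos hreg.one_le
  set Cq := 2 + 2 * C₀ ^ 2 * 2 ^ n with hCq
  set D := 16 ^ n * ((13 + 12 * C₀ ^ 2 * 2 ^ n) * Cb ^ 2 + C₀ * (2 * Ct ^ 2)) with hD
  have hfl := flat_cell hpl hreg hgeo hx hr T
  have hJ := slope_cell hpl hreg hgeo hx hr T e s hes
  set f : ℕ → Sp d → ℝ := fun k z => cellGeo n T k z ^ 2 with hf
  have hf0 : ∀ k z, 0 ≤ f k z := fun k z => sq_nonneg _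
  set u : ℕ → Sp d → Sp d → ℝ := fun k z y => slope μ z (cellRad r₀ k) (e k z) y ^ 2 with hu
  show _ ≤ ((1 : ℝ) / 4) ^ (k - k') * ((D * (f k z + f k' w +
    ∑ i ∈ range (k - k' + 1), f (k - i) (T.anc k z i)) +
      4 * (((1 : ℝ) / 2) ^ (k - k') * (∫ y in ball z (cellRad r₀ k) ∩ ball w (cellRad r₀ k'),
        u k' w y ∂μ) / sc r₀ k ^ n)) * sc r₀ k ^ n)
  have hk'K := hk'.trans hk
  obtain ⟨hez, hsz⟩ := hes k hk z hz
  obtain ⟨hew, hsw⟩ := hes k' hk'K w hw
  have hsn := pow_pos (sc_pos hr k) n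
  have hX : 0 ≤ ∫ y in ball z (cellRad r₀ k) ∩ ball w (cellRad r₀ k'), u k' w y ∂μ :=
    integral_nonneg fun y => sq_nonneg _
  have hA : 0 ≤ ∑ i ∈ range (k - k' + 1), f (k - i) (T.anc k z i) :=
    sum_nonneg fun i _ => hf0 _ _
  have hcoef : |s k z * s k' w * ⟪e k z, e k' w⟫| ≤ 1 := by
    rw [abs_mul, abs_mul]
    exact mul_le_one₀ (mul_le_one₀ hsz (abs_nonneg _) hsw) (abs_nonneg _)
      ((abs_real_inner_le_norm _ _).trans (mul_le_one₀ hez.norm_le (norm_nonneg _) hew.norm_le))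
  have hint : ∀ y, ⟪(s k z * height μ z (cellRad r₀ k) (e k z) y) • e k z,
      (s k' w * height μ w (cellRad r₀ k') (e k' w) y) • e k' w⟫ =
      s k z * s k' w * ⟪e k z, e k' w⟫ *
        (height μ z (cellRad r₀ k) (e k z) y * height μ w (cellRad r₀ k') (e k' w) y) :=
    fun y => by rw [real_inner_smul_left, real_inner_smul_right]; ring
  simp only [hint]
  rw [integral_const_mul, abs_mul]
  refine (mul_le_of_le_one_left (abs_nonneg _) hcoef).trans ?_
  rcases eq_or_lt_of_le hk' with rfl | hlt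
  · refine (cross_same (cellRad_pos hr _)).trans ?_
    refine (add_le_add (hJ _ hk z hz) (hJ _ hk w hw)).trans ?_
    simp only [Nat.sub_self, pow_zero, one_mul] at hA ⊢
    have hDq : Cq * Cb ^ 2 * 16 ^ n ≤ D := by
      have e1 : D - Cq * Cb ^ 2 * 16 ^ n =
          16 ^ n * ((11 + 10 * C₀ ^ 2 * 2 ^ n) * Cb ^ 2 + C₀ * (2 * Ct ^ 2)) := by
        rw [hD, hCq]; ring
      have e2 : 0 ≤ 16 ^ n * ((11 + 10 * C₀ ^ 2 * 2 ^ n) * Cb ^ 2 + C₀ * (2 * Ct ^ 2)) := by
        positivity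
      linarith
    rw [← mul_add, ← add_mul, ← mul_assoc]
    refine mul_le_mul_of_nonneg_right ?_ hsn.le
    refine le_add_of_le_of_nonneg (mul_le_mul hDq (le_add_of_nonneg_right hA)
      (add_nonneg (hf0 _ _) (hf0 _ _)) (by positivity)) ?_
    exact mul_nonneg (by norm_num) (div_nonneg hX hsn.le)
  · rcases hez with h0 | ⟨hdz, henz⟩
    · have hz0 : ∀ y, height μ z (cellRad r₀ k) (e k z) y = 0 := fun y => by
        simp [h0, height]
      simp only [hz0, zero_mul, integral_zero, abs_zero]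
      have hD0 : 0 ≤ D := mul_nonneg (pow_nonneg (by norm_num) n) (add_nonneg
        (mul_nonneg (add_nonneg (by norm_num) (mul_nonneg (mul_nonneg (by norm_num) (sq_nonneg _))
          (pow_nonneg zero_le_two n))) (sq_nonneg _))
        (mul_nonneg hC.le (mul_nonneg zero_le_two (sq_nonneg _))))
      exact mul_nonneg (pow_nonneg (by norm_num) _) (mul_nonneg (add_nonneg
        (mul_nonneg hD0 (add_nonneg (add_nonneg (hf0 _ _) (hf0 _ _)) hA))
        (mul_nonneg (by norm_num) (div_nonneg (mul_nonneg (pow_nonneg (by norm_num) _) hX) hsn.le)))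
        hsn.le)
    have hS : 8 * cellRad r₀ k ≤ cellRad r₀ k' := by
      have h := sc_anti hr (show k' + 1 ≤ k by omega)
      rw [sc_succ] at h
      rw [cellRad_eq, cellRad_eq]
      linarith
    refine (cross_le hpl hreg (cellRad_pos hr k) (T.mem k hk z hz) hdz (Or.inr ⟨hdz, henz⟩) hS
      hew.norm_le).trans ?_
    have hratio : cellRad r₀ k / cellRad r₀ k' = ((1 : ℝ) / 8) ^ (k - k') := by
      rw [cellRad_eq, cellRad_eq, sc_eq r₀ hk', one_div_pow]
      have := (sc_pos hr k').ne'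
      field_simp
    rw [hratio]
    have hτ := htang x₀ hx r₀ hr K T k hk z hz k' hk' w hw
      (hzw.trans_eq (by norm_num)) _ hew.norm_le hew.proj_eq
    exact cross_algebra (by positivity) hC.le (pow_pos (by norm_num) n) hsn (hf0 k z)
      (cellRad_pow r₀ k) (mul_nonneg (sq_nonneg _) (pow_pos (cellRad_pos hr k) n).le)
      (hfl k hk z hz) (tau_sq (k - k') (fun i => cellGeo n T (k - i) (T.anc k z i))
        (norm_nonneg _) hτ) (add_nonneg (hf0 k' w) hA)

private lemma square_sum (hpl : PlaneSpec n d) (hreg : Reg n C₀ μ) :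
    ∃ C : ℝ, 0 ≤ C ∧ ∀ (x₀ : Sp d), x₀ ∈ μ.support → ∀ r₀ : ℝ, 0 < r₀ →
      ENNReal.ofReal r₀ ≤ Metric.ediam μ.support → ∀ K (T : Tree μ x₀ r₀ K)
        (e : ℕ → Sp d → Sp d) (s : ℕ → Sp d → ℝ),
        (∀ k ≤ K, ∀ z ∈ T.net k, Sel n μ z (cellRad r₀ k) (e k z) ∧ |s k z| ≤ 1) →
        ∫ y, ‖∑ k ∈ range (K + 1), ∑ z ∈ T.net k,
            (s k z * height μ z (cellRad r₀ k) (e k z) y) • e k z‖ ^ 2 ∂μ ≤ C * sqSum n T := by
  classical
  obtain ⟨Cb, hCb, hgeo⟩ := flat_le_cellGeo hpl hreg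
  obtain ⟨Ct, hCt, htang⟩ := tang_le hpl hreg
  have hC : 0 < C₀ := lt_of_lt_of_le one_pos hreg.one_le
  set Cq := 2 + 2 * C₀ ^ 2 * 2 ^ n with hCq
  set D := 16 ^ n * ((13 + 12 * C₀ ^ 2 * 2 ^ n) * Cb ^ 2 + C₀ * (2 * Ct ^ 2)) with hD
  set N := C₀ ^ 2 * 2 ^ n * ((2 * 16 : ℝ) + 1) ^ n with hN
  refine ⟨2 * (D * (4 * N + 8 * N ^ 2) +
    4 * (2 * (C₀ ^ 2 * 2 ^ n * 17 ^ n) * (Cq * Cb ^ 2 * 16 ^ n))) * (C₀ * 4 ^ n), by positivity,
    fun x₀ hx r₀ hr hd K T e s hes => ?_⟩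
  set f : ℕ → Sp d → ℝ := fun k z => cellGeo n T k z ^ 2 with hf
  have hf0 : ∀ k z, 0 ≤ f k z := fun k z => sq_nonneg _
  set u : ℕ → Sp d → Sp d → ℝ := fun k z y => slope μ z (cellRad r₀ k) (e k z) y ^ 2 with hu
  have hJ := slope_cell hpl hreg hgeo hx hr T e s hes
  set B : ℕ → Sp d → ℕ → Sp d → ℝ := fun k z k' w =>
    D * (f k z + f k' w + ∑ i ∈ range (k - k' + 1), f (k - i) (T.anc k z i)) +
      4 * (((1 : ℝ) / 2) ^ (k - k') * (∫ y in ball z (cellRad r₀ k) ∩ ball w (cellRad r₀ k'),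
        u k' w y ∂μ) / sc r₀ k ^ n) with hB
  refine (gram (n := n) T hr (by norm_num : (0 : ℝ) ≤ 16)
    (fun k z y => (s k z * height μ z (cellRad r₀ k) (e k z) y) • e k z)
    (fun k _ z _ => (continuous_const.mul (continuous_height μ z _ _)).smul continuous_const)
    (fun k hk z hz y hy => by
      rw [height_eq_zero (cellRad_pos hr k) (by rwa [cellRad_eq]), mul_zero, zero_smul])
    B fun k hk z hz k' hk' w hw hzw => ?_).trans ?_
  · exact pair_bound hpl hreg hgeo htang hx hr T e s hes hk hz hk' hw hzw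
  · set S := ∑ k ∈ range (K + 1), ∑ z ∈ T.net k, f k z * sc r₀ k ^ n with hSdef
    have h1 := schur hreg T hr hd (by norm_num : (0 : ℝ) ≤ 2 * 16) f hf0
    have h2 := pairSum_anc hreg T hr hd (by norm_num : (2 : ℝ) ≤ 2 * 16) f hf0
    have h3 := pairSum_overlap (a := 2 * 16) hreg T hr hd u
      (fun k z => integrableOn_ball ((continuous_slope μ z _ _).pow 2) z _)
      fun k z y => sq_nonneg _
    have h4 : (∑ k ∈ range (K + 1), ∑ z ∈ T.net k, ∫ y in ball z (cellRad r₀ k), u k z y ∂μ) ≤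
        Cq * Cb ^ 2 * 16 ^ n * S := by
      simp only [hSdef, mul_sum]
      exact sum_le_sum fun k hk => sum_le_sum fun z hz =>
        hJ k (Nat.le_of_lt_succ (mem_range.1 hk)) z hz
    have hS : S ≤ C₀ * 4 ^ n * sqSum n T := by
      simp only [hSdef, sqSum, mul_sum]
      refine sum_le_sum fun k hk => sum_le_sum fun z hz => ?_
      refine (mul_le_mul_of_nonneg_left
        (le_cell hreg T hr hd (Nat.le_of_lt_succ (mem_range.1 hk)) hz) (hf0 k z)).trans_eq ?_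
      simp only [hf]
      ring
    have hsplit : pairSum n T (2 * 16) B = D * pairSum n T (2 * 16) (fun k z k' w => f k z + f k' w)
        + D * pairSum n T (2 * 16)
          (fun k z k' _ => ∑ i ∈ range (k - k' + 1), f (k - i) (T.anc k z i))
        + 4 * pairSum n T (2 * 16) (fun k z k' w => ((1 : ℝ) / 2) ^ (k - k') *
          (∫ y in ball z (cellRad r₀ k) ∩ ball w (cellRad r₀ k'), u k' w y ∂μ) / sc r₀ k ^ n) := by
      simp only [pairSum, mul_sum, ← sum_add_distrib, hB]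
      refine sum_congr rfl fun k _ => sum_congr rfl fun z _ => sum_congr rfl fun k' _ =>
        sum_congr rfl fun w _ => ?_
      ring
    rw [hsplit]
    have hD0 : 0 ≤ D := by positivity
    have h5 := mul_le_mul_of_nonneg_left h1 hD0
    have h6 := mul_le_mul_of_nonneg_left h2 hD0
    have h7 := h3.trans (mul_le_mul_of_nonneg_left h4 (by positivity))
    have h8 := mul_le_mul_of_nonneg_left hS (by positivity : (0 : ℝ) ≤
      2 * (D * (4 * N + 8 * N ^ 2) +
        4 * (2 * (C₀ ^ 2 * 2 ^ n * 17 ^ n) * (Cq * Cb ^ 2 * 16 ^ n))))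
    rw [← hN, ← hSdef] at h5 h6
    refine le_trans (mul_le_mul_of_nonneg_left (add_le_add (add_le_add h5 h6)
      (mul_le_mul_of_nonneg_left h7 (by norm_num : (0 : ℝ) ≤ 4))) zero_le_two) ?_
    refine le_of_eq_of_le (by ring) (h8.trans_eq (by ring))

end

theorem heightSum [Nonempty (Plane n d)] (hp : PairSpec n d) (hpl : PlaneSpec n d) :
    HeightSumSpec n d := by
  classical
  intro μ _ C₀ hreg hb M
  obtain ⟨Ca, hCa, hsel⟩ := select hp hreg
  obtain ⟨Cs, hCs, hps⟩ := pair_sum_le hp hreg hb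
  obtain ⟨Cq, hCq, hsq⟩ := square_sum hpl hreg
  have hC : 0 < C₀ := lt_of_lt_of_le one_pos hreg.one_le
  set G : ℝ := 2 * C₀ * 2 ^ n / 16 ^ n *
    (Cs * √(18 ^ n) * √Cq + Cs * (2 * (2 * C₀ * 16 ^ n * (C₀ ^ 2 * 6 ^ n)))) with hG
  refine ⟨(M + 1) * (G + (M + 1) * (Ca * (C₀ * 2 ^ n))), by positivity,
    fun x₀ hx r₀ hr hd K T => ?_⟩
  have hsel' : ∀ k z, ∃ (e : Sp d) (s : ℝ), k ≤ K → z ∈ T.net k →
      Sel n μ z (cellRad r₀ k) e ∧ |s| ≤ 1 ∧ aT n μ z (cellRad r₀ k) * cellRad r₀ k ^ n ≤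
        2 * pair n μ z (cellRad r₀ k) (fun y => (s * height μ z (cellRad r₀ k) e y) • e) := by
    intro k z
    by_cases h : k ≤ K ∧ z ∈ T.net k
    · obtain ⟨-, -, e, s, h3⟩ := hsel z (T.mem k h.1 z h.2) _ (cellRad_pos hr k)
      exact ⟨e, s, fun _ _ => h3⟩
    · exact ⟨0, 0, fun h1 h2 => absurd ⟨h1, h2⟩ h⟩
  choose e s hes using hsel'
  set φ : ℕ → Sp d → Sp d → Sp d := fun k z y =>
    (s k z * height μ z (cellRad r₀ k) (e k z) y) • e k z with hφ
  set Q : ℝ := √(r₀ ^ n * (r₀ ^ n + sqSum n T)) with hQ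
  have hsq0 : 0 ≤ sqSum n T :=
    sum_nonneg fun k _ => sum_nonneg fun z _ => mul_nonneg (sq_nonneg _) measureReal_nonneg
  have hrn : r₀ ^ n ≤ Q := Real.le_sqrt_of_sq_le (by
    rw [sq]; exact mul_le_mul_of_nonneg_left (le_add_of_nonneg_right hsq0) (by positivity))
  have hfield : ∀ k ≤ K, ∀ z ∈ T.net k, _ := fun k hk z hz =>
    height_field hreg (T.mem k hk z hz) (cellRad_pos hr k) (hes k z hk hz).1.norm_le
      (hes k z hk hz).2.1
  have hA : ∑ k ∈ range (K + 1), ∑ z ∈ T.net k,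
      aT n μ z (cellRad r₀ k) * μ.real (T.cell k z) ≤ G * Q := by
    have hle : ∀ k ≤ K, ∀ z ∈ T.net k, aT n μ z (cellRad r₀ k) * μ.real (T.cell k z) ≤
        2 * C₀ * 2 ^ n / 16 ^ n * pair n μ z (16 * sc r₀ k) (φ k z) := by
      intro k hk z hz
      obtain ⟨-, -, h⟩ := hes k z hk hz
      have h0 := (hsel z (T.mem k hk z hz) _ (cellRad_pos hr k)).1
      refine (mul_le_mul_of_nonneg_left (cell_le hreg T hr hk hz) h0).trans ?_
      rw [← cellRad_eq]
      have h' := mul_le_mul_of_nonneg_left h (by positivity : (0 : ℝ) ≤ C₀ * 2 ^ n / 16 ^ n)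
      refine le_of_eq_of_le ?_ (h'.trans_eq (by simp only [hφ]; ring))
      rw [cellRad_eq, mul_pow]
      field_simp
    have hsum := hps x₀ r₀ K T hr 16 (by norm_num) φ
      (fun k z => Real.toNNReal (17 / cellRad r₀ k))
      (fun k hk z hz y hy => (hfield k hk z hz).1 y (by rwa [cellRad_eq]))
      (fun k hk z hz => (hfield k hk z hz).2.2.1) fun k hk z hz => (hfield k hk z hz).2.2.2
    have hL2 := hsq x₀ hx r₀ hr hd K T e s fun k hk z hz => ⟨(hes k z hk hz).1, (hes k z hk hz).2.1⟩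
    have herr : ∑ k ∈ range (K + 1), ∑ z ∈ T.net k, sc r₀ k / r₀ * ∫ y, ‖φ k z y‖ ∂μ ≤
        2 * (2 * C₀ * 16 ^ n * (C₀ ^ 2 * 6 ^ n)) * r₀ ^ n := by
      refine (sum_le_sum (g := fun k => ((1 : ℝ) / 4) ^ k *
        (2 * C₀ * 16 ^ n * (C₀ ^ 2 * 6 ^ n) * r₀ ^ n)) fun k hk => ?_).trans ?_
      · have hk : k ≤ K := Nat.le_of_lt_succ (mem_range.1 hk)
        have hscale : sc r₀ k / r₀ ≤ ((1 : ℝ) / 4) ^ k := by
          rw [sc, div_div, mul_comm, ← div_div, div_self hr.ne', one_div_pow]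
          exact one_div_le_one_div_of_le (by positivity)
            (pow_le_pow_left₀ (by norm_num) (by norm_num) k)
        refine (sum_le_sum (g := fun _ => ((1 : ℝ) / 4) ^ k * (2 * C₀ * 16 ^ n * sc r₀ k ^ n))
          fun z hz => ?_).trans ?_
        · refine mul_le_mul hscale ?_ (integral_nonneg fun y => norm_nonneg _) (by positivity)
          rw [mul_assoc (2 * C₀), ← mul_pow, mul_assoc, ← cellRad_eq]
          rw [← setIntegral_eq_integral_of_forall_compl_eq_zero (s := ball z (cellRad r₀ k))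
            fun y hy => by simp only [hφ]; rw [(hfield k hk z hz).1 y (not_lt.1 hy), norm_zero]]
          refine (Real.le_norm_self _).trans ((norm_setIntegral_le_of_norm_le_const (C := 2)
            (lt_top_iff_ne_top.2 (hreg.fin _ _)) fun y _ => ?_).trans
              (mul_le_mul_of_nonneg_left (hreg.upper z _ (cellRad_pos hr k)) zero_le_two))
          rw [norm_norm]
          exact (hfield k hk z hz).2.1 y
        · rw [sum_const, nsmul_eq_mul]
          refine le_of_eq_of_le (by ring : (#(T.net k) : ℝ) * _ =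
            ((1 : ℝ) / 4) ^ k * (2 * C₀ * 16 ^ n * ((#(T.net k) : ℝ) * sc r₀ k ^ n))) ?_
          refine mul_le_mul_of_nonneg_left ?_ (by positivity)
          rw [mul_assoc (2 * C₀ * 16 ^ n) _ (r₀ ^ n)]
          exact mul_le_mul_of_nonneg_left (count_net hreg T hr hd hk) (by positivity)
      · rw [← sum_mul, mul_assoc (2 : ℝ) (2 * C₀ * 16 ^ n * (C₀ ^ 2 * 6 ^ n)) (r₀ ^ n)]
        exact mul_le_mul_of_nonneg_right (sum_geom_le _) (by positivity)
    calc (∑ k ∈ range (K + 1), ∑ z ∈ T.net k, aT n μ z (cellRad r₀ k) * μ.real (T.cell k z))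
        ≤ 2 * C₀ * 2 ^ n / 16 ^ n *
            ∑ k ∈ range (K + 1), ∑ z ∈ T.net k, pair n μ z (16 * sc r₀ k) (φ k z) := by
          simp only [mul_sum]
          exact sum_le_sum fun k hk => sum_le_sum fun z hz =>
            hle k (Nat.le_of_lt_succ (mem_range.1 hk)) z hz
      _ ≤ 2 * C₀ * 2 ^ n / 16 ^ n * (Cs * √(18 ^ n) * √Cq * Q +
            Cs * (2 * (2 * C₀ * 16 ^ n * (C₀ ^ 2 * 6 ^ n))) * Q) := by
          refine mul_le_mul_of_nonneg_left ((le_abs_self _).trans (hsum.trans (add_le_add ?_ ?_)))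
            (by positivity)
          · have h1 := mul_le_mul_of_nonneg_left (Real.sqrt_le_sqrt hL2)
              (by positivity : 0 ≤ Cs * √(((16 : ℝ) + 2) * r₀) ^ 0 * √((((16 : ℝ) + 2) * r₀) ^ n))
            simp only [pow_zero, mul_one] at h1
            refine h1.trans ?_
            rw [hQ, mul_assoc Cs, mul_assoc Cs, mul_assoc Cs]
            refine mul_le_mul_of_nonneg_left ?_ hCs
            rw [← Real.sqrt_mul (by positivity), ← Real.sqrt_mul (by positivity),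
              ← Real.sqrt_mul (by positivity)]
            refine Real.sqrt_le_sqrt ?_
            rw [mul_pow]
            norm_num
            rw [mul_assoc, mul_assoc]
            refine mul_le_mul_of_nonneg_left ?_ (by positivity)
            rw [mul_left_comm]
            refine mul_le_mul_of_nonneg_left (mul_le_mul_of_nonneg_left ?_ (by positivity)) hCq
            exact le_add_of_nonneg_left (by positivity)
          · rw [mul_assoc Cs]
            exact mul_le_mul_of_nonneg_left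
              (herr.trans (mul_le_mul_of_nonneg_left hrn (by positivity))) hCs
      _ = _ := by rw [hG]; ring
  -- ancestors of order `j`
  have hAnc : ∀ j ≤ M, ∑ k ∈ range (K + 1), ∑ z ∈ T.net k,
      aT n μ (T.anc k z j) (cellRad r₀ k * 8 ^ j) * μ.real (T.cell k z) ≤
        G * Q + (M + 1) * (Ca * (C₀ * 2 ^ n) * Q) := by
    intro j hj
    rw [← sum_filter_add_sum_filter_not (range (K + 1)) (fun k => j ≤ k)]
    refine add_le_add (le_trans ?_ hA) ?_
    · have hinj : ∀ x ∈ ({k ∈ range (K + 1) | j ≤ k} : Finset ℕ), ∀ y ∈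
          ({k ∈ range (K + 1) | j ≤ k} : Finset ℕ), x - j = y - j → x = y := by
        intro x hx y hy h
        simp only [mem_filter] at hx hy
        omega
      refine le_trans (sum_le_sum (g := fun k => ∑ w ∈ T.net (k - j),
        aT n μ w (cellRad r₀ (k - j)) * μ.real (T.cell (k - j) w)) fun k hk => ?_) ?_
      · obtain ⟨hk, hjk⟩ := mem_filter.1 hk
        have hk : k ≤ K := Nat.le_of_lt_succ (mem_range.1 hk)
        simp only [cellRad_mul_pow r₀ hjk]
        rw [← sum_fiberwise_of_maps_to fun z hz => (anc_spec T j k hk hjk z hz).1]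
        refine sum_le_sum fun w hw => ?_
        rw [sum_congr rfl (g := fun z => aT n μ w (cellRad r₀ (k - j)) * μ.real (T.cell k z))
          fun z hz => by rw [(mem_filter.1 hz).2], ← mul_sum]
        exact mul_le_mul_of_nonneg_left (sum_cell_anc hreg T hk hjk hw)
          (hsel w (T.mem _ (by omega) w hw) _ (cellRad_pos hr _)).1
      · rw [← sum_image (f := fun i => ∑ w ∈ T.net i, aT n μ w (cellRad r₀ i) *
          μ.real (T.cell i w)) hinj]
        refine sum_le_sum_of_subset_of_nonneg (fun i hi => ?_) fun i hi _ => sum_nonneg fun w hw =>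
          mul_nonneg (hsel w (T.mem i (Nat.le_of_lt_succ (mem_range.1 hi)) w hw) _
            (cellRad_pos hr i)).1 measureReal_nonneg
        obtain ⟨k, hk, rfl⟩ := mem_image.1 hi
        simp only [mem_filter, mem_range] at hk ⊢
        omega
    · have hcard : (#({k ∈ range (K + 1) | ¬ j ≤ k}) : ℝ) ≤ M + 1 := by
        have h : #({k ∈ range (K + 1) | ¬ j ≤ k}) ≤ #(range (M + 1)) := card_le_card fun k hk => by
          simp only [mem_filter, mem_range] at hk ⊢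
          omega
        rw [card_range] at h
        exact_mod_cast h
      refine (sum_le_card_nsmul _ _ (Ca * (C₀ * 2 ^ n) * Q) fun k hk => ?_).trans ?_
      · have hk : k ≤ K := Nat.le_of_lt_succ (mem_range.1 (mem_filter.1 hk).1)
        refine (sum_le_sum (g := fun z => Ca * μ.real (T.cell k z)) fun z hz =>
          mul_le_mul_of_nonneg_right (hsel _ (T.anc_mem hx hk hz) _
            (mul_pos (cellRad_pos hr k) (by positivity))).2.1 measureReal_nonneg).trans ?_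
        rw [← mul_sum, mul_assoc Ca]
        refine mul_le_mul_of_nonneg_left ?_ hCa
        have h0 : x₀ ∈ T.net (k - k) := by rw [Nat.sub_self, T.net_zero, mem_singleton]
        have hall : ∀ z ∈ T.net k, T.anc k z k = x₀ := fun z hz => by
          have := (anc_spec T k k hk le_rfl z hz).1
          rwa [Nat.sub_self, T.net_zero, mem_singleton] at this
        have h1 := sum_cell_anc hreg T hk le_rfl h0
        rw [filter_eq_self.2 hall, Nat.sub_self] at h1
        refine h1.trans ((cell_le hreg T hr (Nat.zero_le K) (by simp [T.net_zero])).trans ?_)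
        simpa [sc] using mul_le_mul_of_nonneg_left hrn (by positivity : 0 ≤ C₀ * 2 ^ n)
      · rw [nsmul_eq_mul]
        exact mul_le_mul_of_nonneg_right hcard (by positivity)
  calc (∑ k ∈ range (K + 1), ∑ z ∈ T.net k,
        (∑ j ∈ range (M + 1), aT n μ (T.anc k z j) (cellRad r₀ k * 8 ^ j)) * μ.real (T.cell k z))
      = ∑ j ∈ range (M + 1), ∑ k ∈ range (K + 1), ∑ z ∈ T.net k,
          aT n μ (T.anc k z j) (cellRad r₀ k * 8 ^ j) * μ.real (T.cell k z) := by
        simp only [sum_mul]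
        rw [sum_comm (s := range (M + 1))]
        exact sum_congr rfl fun k _ => sum_comm
    _ ≤ ∑ _j ∈ range (M + 1), (G * Q + (M + 1) * (Ca * (C₀ * 2 ^ n) * Q)) :=
        sum_le_sum fun j hj => hAnc j (Nat.le_of_lt_succ (mem_range.1 hj))
    _ = _ := by
        rw [sum_const, card_range, nsmul_eq_mul, hQ]
        push_cast
        ring

end Vale.Agent.P120
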