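import Vale.Agent.P120.Sums.Basic

/-!
# P120: tangential parts against planes, compared along the tree
-/

open MeasureTheory Metric Finset
open scoped ENNReal RealInnerProductSpace

namespace Vale.Agent.P120.Sums

variable {n d : ℕ}

/-- The tangential part of a vector. -/
noncomputable def proj (L : Plane n d) (x : Sp d) : Sp d := ∑ i, ⟪L.frame i, x⟫ • L.frame i

/-- The distance of two planes as directions. -/
noncomputable def gap (L L' : Plane n d) : ℝ :=
  √(∑ i, ‖L.frame i - proj L' (L.frame i)‖ ^ 2)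

lemma inner_frame_proj (L : Plane n d) (x : Sp d) (i : Fin n) :
    ⟪L.frame i, proj L x⟫ = ⟪L.frame i, x⟫ :=
  L.ortho.inner_right_fintype _ i

lemma inner_proj_comm (L : Plane n d) (x y : Sp d) : ⟪proj L x, y⟫ = ⟪x, proj L y⟫ := by
  simp only [proj, sum_inner, inner_sum, real_inner_smul_left, real_inner_smul_right]
  exact sum_congr rfl fun i _ => by rw [real_inner_comm x]; ring

lemma norm_proj_sq (L : Plane n d) (x : Sp d) : ‖proj L x‖ ^ 2 = ∑ i, ⟪L.frame i, x⟫ ^ 2 := by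
  rw [← real_inner_self_eq_norm_sq]
  nth_rw 1 [proj]
  rw [sum_inner]
  exact sum_congr rfl fun i _ => by rw [real_inner_smul_left, inner_frame_proj, sq]

lemma norm_sub_proj_sq (L : Plane n d) (x : Sp d) :
    ‖x - proj L x‖ ^ 2 = ‖x‖ ^ 2 - ∑ i, ⟪L.frame i, x⟫ ^ 2 := by
  rw [norm_sub_sq_real, norm_proj_sq]
  have : ⟪x, proj L x⟫ = ∑ i, ⟪L.frame i, x⟫ ^ 2 := by
    simp only [proj, inner_sum, real_inner_smul_right]
    exact sum_congr rfl fun i _ => by rw [real_inner_comm x, sq]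
  rw [this]; ring

lemma norm_proj_le (L : Plane n d) (x : Sp d) : ‖proj L x‖ ≤ ‖x‖ := by
  rw [← sq_le_sq₀ (norm_nonneg _) (norm_nonneg _), norm_proj_sq]
  have := norm_sub_proj_sq L x
  nlinarith [sq_nonneg ‖x - proj L x‖]

lemma gap_nonneg (L L' : Plane n d) : 0 ≤ gap L L' := Real.sqrt_nonneg _

lemma gap_symm (L L' : Plane n d) : gap L L' = gap L' L := by
  simp only [gap, norm_sub_proj_sq, L.ortho.1, L'.ortho.1, sum_sub_distrib]
  rw [sum_comm]
  simp only [real_inner_comm]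

lemma gap_self (L : Plane n d) : gap L L = 0 := by
  have h : ∀ i, proj L (L.frame i) = L.frame i := fun i => by
    rw [← sub_eq_zero, ← norm_eq_zero, ← sq_eq_zero_iff, norm_sub_rev, norm_sub_proj_sq,
      L.ortho.1, sum_eq_single i (fun j _ hj => by rw [L.ortho.2 hj]; simp) (by simp)]
    simp [L.ortho.1]
  simp [gap, h]

/-- A plane sees at most the gap more. -/
lemma proj_le_gap (L L' : Plane n d) {e : Sp d} (he : ‖e‖ ≤ 1) :
    ‖proj L e‖ ≤ gap L L' + ‖proj L' e‖ := by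
  have hs : proj L e = proj L (e - proj L' e) + proj L (proj L' e) := by
    simp only [proj, ← sum_add_distrib, inner_sub_right, ← add_smul]
    simp
  rw [hs]
  refine (norm_add_le _ _).trans (add_le_add ?_ (norm_proj_le L _))
  refine Real.le_sqrt_of_sq_le ?_
  rw [norm_proj_sq]
  refine sum_le_sum fun i _ => sq_le_sq.2 ?_
  rw [inner_sub_right, ← inner_proj_comm, ← inner_sub_left, abs_norm]
  refine (abs_real_inner_le_norm _ _).trans ?_
  exact mul_le_of_le_one_right (norm_nonneg _) he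

lemma gap_le (L L' : Plane n d) {b : ℝ} (hb : 0 ≤ b)
    (h : ∀ i, ‖L.frame i - proj L' (L.frame i)‖ ≤ b) : gap L L' ≤ n * b := by
  rcases Nat.eq_zero_or_pos n with rfl | hn
  · simp [gap]
  rw [gap, Real.sqrt_le_iff]
  refine ⟨by positivity, (sum_le_card_nsmul _ _ (b ^ 2) fun i _ =>
    pow_le_pow_left₀ (norm_nonneg _) (h i) 2).trans ?_⟩
  rw [card_univ, Fintype.card_fin, nsmul_eq_mul, mul_pow]
  have : (1 : ℝ) ≤ n := by exact_mod_cast hn
  exact mul_le_mul_of_nonneg_right (by nlinarith) (sq_nonneg b)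

variable [Nonempty (Plane n d)] {μ : Measure (Sp d)} [IsLocallyFiniteMeasure μ] {C₀ r₀ : ℝ}
  {x₀ : Sp d} {K : ℕ}

/-- The plane of a cell. -/
noncomputable abbrev cellPlane (n : ℕ) [Nonempty (Plane n d)] (μ : Measure (Sp d)) (r₀ : ℝ)
    (k : ℕ) (z : Sp d) : Plane n d :=
  bestPlane (n := n) μ z (cellRad r₀ k)

/-- The flatness of a cell and of its parent are dominated by the geometric flatness. -/
lemma flat_le_cellGeo (hpl : PlaneSpec n d) (hreg : Reg n C₀ μ) :
    ∃ C : ℝ, 0 ≤ C ∧ ∀ (x₀ : Sp d), x₀ ∈ μ.support → ∀ (r₀ : ℝ), 0 < r₀ →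
      ∀ (K : ℕ) (T : Tree μ x₀ r₀ K), ∀ k ≤ K, ∀ z ∈ T.net k, 0 ≤ cellGeo n T k z ∧
        ∀ j ≤ 1, flatness n μ (T.anc k z j) (cellRad r₀ k * 8 ^ j) ≤ C * cellGeo n T k z := by
  obtain ⟨Cf, hCf⟩ := (hpl μ C₀ hreg).2.1
  refine ⟨max Cf √8, le_trans (Real.sqrt_nonneg 8) (le_max_right _ _),
    fun x₀ hx r₀ hr K T k hk z hz => ?_⟩
  set t : ℕ → ℝ := fun j => (√8)⁻¹ ^ j * flatness n μ (T.anc k z j) (cellRad r₀ k * 8 ^ j)
  have hf : ∀ j, 0 ≤ flatness n μ (T.anc k z j) (cellRad r₀ k * 8 ^ j) ∧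
      flatness n μ (T.anc k z j) (cellRad r₀ k * 8 ^ j) ≤ Cf := fun j =>
    hCf _ (T.anc_mem hx hk hz) _ (mul_pos (cellRad_pos hr k) (by positivity))
  have ht : ∀ j, 0 ≤ t j := fun j => mul_nonneg (by positivity) (hf j).1
  have h8 : (1 : ℝ) < √8 := by rw [Real.lt_sqrt zero_le_one]; norm_num
  have hsum : Summable t := Summable.of_nonneg_of_le ht
    (fun j => mul_le_mul_of_nonneg_left (hf j).2 (by positivity))
    ((summable_geometric_of_lt_one (by positivity) (inv_lt_one_of_one_lt₀ h8)).mul_right Cf)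
  refine ⟨le_min zero_le_one (tsum_nonneg ht), fun j hj => ?_⟩
  show _ ≤ max Cf √8 * min 1 (∑' i, t i)
  rw [mul_min_of_nonneg _ _ (le_trans (Real.sqrt_nonneg 8) (le_max_right _ _)), mul_one]
  refine le_min ((hf j).2.trans (le_max_left _ _)) ?_
  refine le_trans ?_ (mul_le_mul_of_nonneg_left (hsum.le_tsum j fun i _ => ht i)
    (le_trans (Real.sqrt_nonneg 8) (le_max_right _ _)))
  simp only [t]
  rw [← mul_assoc]
  refine le_mul_of_one_le_left (hf j).1 ?_
  refine le_trans ?_ (mul_le_mul_of_nonneg_right (le_max_right Cf √8) (by positivity))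
  rcases Nat.le_one_iff_eq_zero_or_eq_one.1 hj with rfl | rfl
  · simp
  · rw [pow_one, mul_inv_cancel₀ (by positivity)]

/-- The gap of two cells inside an earlier one. -/
lemma gap_le_flat (hpl : PlaneSpec n d) (hreg : Reg n C₀ μ) :
    ∃ C : ℝ, 0 ≤ C ∧ ∀ p ∈ μ.support, ∀ q ∈ μ.support, ∀ R R' : ℝ, 0 < R →
      dist p q + R ≤ R' → R' ≤ 8 * R →
        gap (bestPlane (n := n) μ p R) (bestPlane μ q R') ≤ C * flatness n μ q R' := by
  obtain ⟨-, ⟨Cf, hCf⟩, hcmp⟩ := hpl μ C₀ hreg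
  obtain ⟨C, hC, hC'⟩ := hcmp 8
  refine ⟨n * (C + 1), by positivity, fun p hp q hq R R' hR h1 h2 => ?_⟩
  have hR' : 0 < R' := lt_of_lt_of_le hR (by linarith [dist_nonneg (x := p) (y := q)])
  have hf := (hCf q hq R' hR').1
  set L := bestPlane (n := n) μ p R
  set L' := bestPlane (n := n) μ q R'
  rw [mul_assoc]
  refine gap_le L L' (mul_nonneg (by positivity) hf) fun i => ?_
  set v := L.frame i - proj L' (L.frame i) with hv
  have hv1 : ‖v‖ ≤ 1 := by
    have := norm_sub_proj_sq L' (L.frame i)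
    rw [L.ortho.1, ← hv] at this
    have h3 : 0 ≤ ∑ j, ⟪L'.frame j, L.frame i⟫ ^ 2 := sum_nonneg fun j _ => sq_nonneg _
    nlinarith [norm_nonneg v]
  by_cases hd : ENNReal.ofReal R' ≤ Metric.ediam μ.support
  · rcases eq_or_ne v 0 with h0 | h0
    · rw [h0, norm_zero]; exact mul_nonneg (by positivity) hf
    · have hne := norm_ne_zero_iff.2 h0
      have hperp : ∀ j, ⟪L'.frame j, v⟫ = 0 := fun j => by
        rw [hv, inner_sub_right, inner_frame_proj, sub_self]
      have he : ‖v‖⁻¹ • v ∈ L'.normals :=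
        ⟨norm_smul_inv_norm h0, fun j => by rw [real_inner_smul_right, hperp, mul_zero]⟩
      have h := ((hC' p hp q hq R R' hR h1 h2).2 hd _ he).1 i
      have h4 : ⟪‖v‖⁻¹ • v, L.frame i⟫ = ‖v‖ := by
        have h5 : ⟪v, proj L' (L.frame i)⟫ = 0 := by
          simp only [proj, inner_sum, real_inner_smul_right]
          exact sum_eq_zero fun j _ => by rw [real_inner_comm (L'.frame j) v, hperp, mul_zero]
        have h6 : L.frame i = v + proj L' (L.frame i) := (sub_add_cancel _ _).symm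
        rw [real_inner_smul_left, h6, inner_add_right, h5, add_zero, real_inner_self_eq_norm_sq]
        field_simp
      rw [h4, abs_norm] at h
      exact h.trans (mul_le_mul_of_nonneg_right (le_add_of_nonneg_right zero_le_one) hf)
  · have hone : flatness n μ q R' = 1 := by rw [flatness, if_neg hd]
    rw [hone, mul_one]
    exact hv1.trans (le_add_of_nonneg_left hC)

/-- The tangential part of a normal of a nearby earlier cell. -/
theorem tang_le (hpl : PlaneSpec n d) (hreg : Reg n C₀ μ) :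
    ∃ C : ℝ, 0 ≤ C ∧ ∀ (x₀ : Sp d), x₀ ∈ μ.support → ∀ (r₀ : ℝ), 0 < r₀ →
      ∀ (K : ℕ) (T : Tree μ x₀ r₀ K), ∀ k ≤ K, ∀ z ∈ T.net k, ∀ k' ≤ k, ∀ w ∈ T.net k',
        dist z w ≤ 32 * sc r₀ k' → ∀ e : Sp d, ‖e‖ ≤ 1 →
          proj (cellPlane n μ r₀ k' w) e = 0 →
          ‖proj (cellPlane n μ r₀ k z) e‖ ≤ C * (cellGeo n T k' w +
            ∑ i ∈ range (k - k'), cellGeo n T (k - (i + 1)) (T.anc k z (i + 1))) := by
  obtain ⟨Cg, hCg, hgap⟩ := gap_le_flat hpl hreg
  obtain ⟨Cb, hCb, hgeo⟩ := flat_le_cellGeo hpl hreg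
  refine ⟨2 * (Cg * Cb), by positivity, fun x₀ hx r₀ hr K T k hk z hz k' hk' w hw hzw e he hew => ?_⟩
  have climb : ∀ (j k : ℕ), k ≤ K → j ≤ k → ∀ z ∈ T.net k,
      ‖proj (cellPlane n μ r₀ k z) e‖ ≤ ‖proj (cellPlane n μ r₀ (k - j) (T.anc k z j)) e‖ +
        Cg * Cb * ∑ i ∈ range j, cellGeo n T (k - (i + 1)) (T.anc k z (i + 1)) := by
    intro j
    induction j with
    | zero => intro k _ _ z _; simp [T.anc_zero]
    | succ j ih =>
      intro k hk hjk z hz
      obtain ⟨k, rfl⟩ : ∃ k', k = k' + 1 := ⟨k - 1, by omega⟩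
      have hk' := Nat.le_of_succ_le hk
      have hu := T.up_mem k hk z hz
      have h1 := proj_le_gap (cellPlane n μ r₀ (k + 1) z) (cellPlane n μ r₀ k (T.up k z)) he
      have hs := sc_pos hr k
      have hnear : dist z (T.up k z) ≤ sc r₀ k := T.up_near k hk z hz
      have h2 := hgap z (T.mem _ hk z hz) (T.up k z) (T.mem _ hk' _ hu) (cellRad r₀ (k + 1))
        (cellRad r₀ k) (cellRad_pos hr _)
        (by rw [cellRad_eq, cellRad_eq, sc_succ]; linarith) (by linarith [cellRad_succ r₀ k])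
      have h3 := (hgeo x₀ hx r₀ hr K T k hk' _ hu).2 0 zero_le_one
      rw [T.anc_zero, pow_zero, mul_one] at h3
      have h4 := ih k hk' (Nat.le_of_succ_le_succ hjk) _ hu
      rw [sum_range_succ', T.anc_succ, Nat.succ_sub_succ]
      simp only [Nat.succ_sub_succ, T.anc_succ, T.anc_zero, Nat.sub_zero]
      have h5 : gap (cellPlane n μ r₀ (k + 1) z) (cellPlane n μ r₀ k (T.up k z)) ≤
          Cg * Cb * cellGeo n T k (T.up k z) := by
        rw [mul_assoc]; exact h2.trans (mul_le_mul_of_nonneg_left h3 hCg)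
      linarith
  have hl : k - (k - k') = k' := Nat.sub_sub_self hk'
  have hA := (anc_spec T (k - k') k hk (Nat.sub_le _ _) z hz).1
  have hd1 := dist_anc T hr hk (Nat.sub_le k k') hz
  have h0 := climb (k - k') k hk (Nat.sub_le _ _) z hz
  rw [hl] at hA hd1 h0
  set a := T.anc k z (k - k')
  have hk'K := hk'.trans hk
  have hgw := hgeo x₀ hx r₀ hr K T k' hk'K w hw
  have hsum : 0 ≤ ∑ i ∈ range (k - k'), cellGeo n T (k - (i + 1)) (T.anc k z (i + 1)) :=
    sum_nonneg fun i hi =>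
      (hgeo x₀ hx r₀ hr K T _ (by omega) _
        (anc_spec T (i + 1) k hk (by have := mem_range.1 hi; omega) z hz).1).1
  have htop : ‖proj (cellPlane n μ r₀ k' a) e‖ ≤ 2 * (Cg * Cb) * cellGeo n T k' w := by
    rcases k' with _ | m
    · rw [T.net_zero, mem_singleton] at hA hw
      rw [hA.trans hw.symm, hew, norm_zero]
      exact mul_nonneg (by positivity) hgw.1
    · have hu := T.up_mem m hk'K w hw
      have hw1 : dist w (T.up m w) ≤ sc r₀ m := T.up_near m hk'K w hw
      have hs := sc_pos hr m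
      have hsm := sc_succ r₀ m
      have hfl := hgw.2 1 le_rfl
      rw [T.anc_succ, T.anc_zero, pow_one, cellRad_succ] at hfl
      have key : ∀ p ∈ μ.support, dist p (T.up m w) ≤ 6 * sc r₀ m →
          gap (cellPlane n μ r₀ (m + 1) p) (cellPlane n μ r₀ m (T.up m w)) ≤
            Cg * Cb * cellGeo n T (m + 1) w := fun p hp hdp => by
        rw [mul_assoc]
        exact (hgap p hp (T.up m w) (T.mem _ (Nat.le_of_succ_le hk'K) _ hu) (cellRad r₀ (m + 1))
          (cellRad r₀ m) (cellRad_pos hr _) (by rw [cellRad_eq, cellRad_eq, hsm]; linarith)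
          (by linarith [cellRad_succ r₀ m])).trans (mul_le_mul_of_nonneg_left hfl hCg)
      have h1 := key a (T.mem _ hk'K _ hA) (by
        linarith [dist_triangle a z w, dist_triangle a w (T.up m w), dist_comm a z])
      have h2 := key w (T.mem _ hk'K _ hw) (by linarith)
      have h3 := proj_le_gap (cellPlane n μ r₀ (m + 1) a) (cellPlane n μ r₀ m (T.up m w)) he
      have h4 := proj_le_gap (cellPlane n μ r₀ m (T.up m w)) (cellPlane n μ r₀ (m + 1) w) he
      rw [gap_symm, hew, norm_zero] at h4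
      linarith
  have : 0 ≤ Cg * Cb := mul_nonneg hCg hCb
  nlinarith [mul_nonneg this hsum]

end Vale.Agent.P120.Sums
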