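import Vale.Agent.P120.TreeFacts

/-!
# P120: packing of cells and the summation over pairs of cells
-/

open MeasureTheory Metric Finset
open scoped ENNReal RealInnerProductSpace

namespace Vale.Agent.P120.Sums

variable {n d : ℕ} {μ : Measure (Sp d)} {C₀ r₀ : ℝ} {x₀ : Sp d} {K : ℕ}

/-- The scale of generation `k`. -/
noncomputable def sc (r₀ : ℝ) (k : ℕ) : ℝ := r₀ / 8 ^ k

lemma sc_pos (hr : 0 < r₀) (k : ℕ) : 0 < sc r₀ k := by unfold sc; positivity

lemma sc_succ (r₀ : ℝ) (k : ℕ) : sc r₀ (k + 1) = sc r₀ k / 8 := by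
  unfold sc; rw [pow_succ, div_div]

lemma sc_anti (hr : 0 < r₀) {k k' : ℕ} (h : k' ≤ k) : sc r₀ k ≤ sc r₀ k' := by
  unfold sc
  exact div_le_div_of_nonneg_left hr.le (by positivity) (pow_le_pow_right₀ (by norm_num) h)

lemma sc_le (hr : 0 < r₀) (k : ℕ) : sc r₀ k ≤ r₀ := by
  have := sc_anti hr (Nat.zero_le k)
  simpa [sc] using this

lemma cellRad_eq (r₀ : ℝ) (k : ℕ) : cellRad r₀ k = 16 * sc r₀ k := rfl

lemma cellRad_mul_pow (r₀ : ℝ) {k j : ℕ} (h : j ≤ k) :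
    cellRad r₀ k * 8 ^ j = cellRad r₀ (k - j) := by
  obtain ⟨i, rfl⟩ := Nat.exists_eq_add_of_le h
  unfold cellRad
  rw [Nat.add_sub_cancel_left, pow_add]
  field_simp

/-- The ratio of the scales of two generations. -/
lemma sc_eq (r₀ : ℝ) {k k' : ℕ} (h : k' ≤ k) : sc r₀ k = sc r₀ k' / 8 ^ (k - k') := by
  obtain ⟨i, rfl⟩ := Nat.exists_eq_add_of_le h
  unfold sc
  rw [Nat.add_sub_cancel_left, pow_add, div_div]

lemma dist_up (T : Tree μ x₀ r₀ K) :
    ∀ k ≤ K, ∀ z ∈ T.net k, dist z x₀ ≤ 8 / 7 * (r₀ - sc r₀ k) := by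
  intro k
  induction k with
  | zero =>
    intro _ z hz
    rw [T.net_zero, mem_singleton] at hz
    simp [hz, sc]
  | succ k ih =>
    intro hk z hz
    have h1 := ih (Nat.le_of_succ_le hk) _ (T.up_mem k hk z hz)
    have h2 : dist z (T.up k z) ≤ sc r₀ k := T.up_near k hk z hz
    have h3 := dist_triangle z (T.up k z) x₀
    rw [sc_succ]
    linarith

lemma dist_root (T : Tree μ x₀ r₀ K) (hr : 0 < r₀) {k : ℕ} (hk : k ≤ K) {z : Sp d}
    (hz : z ∈ T.net k) : dist z x₀ ≤ 2 * r₀ := by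
  have := dist_up T k hk z hz
  have := sc_pos hr k
  linarith

/-- Ancestors inside the tree: generation, distance and inclusion of the cells. -/
lemma anc_spec (T : Tree μ x₀ r₀ K) : ∀ (j k : ℕ), k ≤ K → j ≤ k → ∀ z ∈ T.net k,
    T.anc k z j ∈ T.net (k - j) ∧
      dist z (T.anc k z j) ≤ 8 / 7 * (sc r₀ (k - j) - sc r₀ k) ∧
      T.cell k z ⊆ T.cell (k - j) (T.anc k z j) := by
  intro j
  induction j with
  | zero =>
    intro k _ _ z hz
    simp [T.anc_zero, hz]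
  | succ j ih =>
    intro k hk hjk z hz
    obtain ⟨k, rfl⟩ : ∃ k', k = k' + 1 := ⟨k - 1, by omega⟩
    obtain ⟨h1, h2, h3⟩ := ih k (Nat.le_of_succ_le hk) (Nat.le_of_succ_le_succ hjk) _
      (T.up_mem k hk z hz)
    rw [T.anc_succ, Nat.succ_sub_succ]
    refine ⟨h1, ?_, fun x hx => h3 ((T.split k hk _ (T.up_mem k hk z hz) x).2 ⟨z, hz, rfl, hx⟩)⟩
    have h4 : dist z (T.up k z) ≤ sc r₀ k := T.up_near k hk z hz
    have h5 := dist_triangle z (T.up k z) (T.anc k (T.up k z) j)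
    rw [sc_succ]
    linarith

lemma dist_anc (T : Tree μ x₀ r₀ K) (hr : 0 < r₀) {j k : ℕ} (hk : k ≤ K) (hj : j ≤ k) {z : Sp d}
    (hz : z ∈ T.net k) : dist z (T.anc k z j) ≤ 2 * sc r₀ (k - j) := by
  have := (anc_spec T j k hk hj z hz).2.1
  have := sc_pos hr k
  have := sc_pos hr (k - j)
  linarith

/-- Separated points of the support near one point. -/
lemma packing (hreg : Reg n C₀ μ) (T : Tree μ x₀ r₀ K) (hr : 0 < r₀)
    (hd : ENNReal.ofReal r₀ ≤ Metric.ediam μ.support) {k : ℕ} (hk : k ≤ K)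
    (s : Finset (Sp d)) (hs : s ⊆ T.net k) (p : Sp d) {ρ : ℝ} (hρ : 0 ≤ ρ)
    (hball : ∀ w ∈ s, dist w p ≤ ρ) :
    (#s : ℝ) * sc r₀ k ^ n ≤ C₀ ^ 2 * 2 ^ n * (ρ + sc r₀ k) ^ n := by
  set r := sc r₀ k with hr'
  have hr0 : 0 < r := sc_pos hr k
  have hC : 0 < C₀ := lt_of_lt_of_le one_pos hreg.one_le
  have hdisj : (s : Set (Sp d)).PairwiseDisjoint fun w => ball w (r / 2) := fun w hw w' hw' hne =>
    ball_disjoint_ball <| by
      rw [add_halves]
      exact T.apart k hk w (hs hw) w' (hs hw') hne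
  have hlow : ∀ w ∈ s, C₀⁻¹ * (r / 2) ^ n ≤ μ.real (ball w (r / 2)) := fun w hw =>
    hreg.lower w (T.mem k hk w (hs hw)) _ (half_pos hr0)
      ((ENNReal.ofReal_le_ofReal (by linarith [sc_le hr k])).trans hd)
  have hsub : (⋃ w ∈ s, ball w (r / 2)) ⊆ ball p (ρ + r) := by
    refine Set.iUnion₂_subset fun w hw x hx => ?_
    rw [mem_ball] at hx ⊢
    linarith [dist_triangle x w p, hball w hw]
  have h1 : (#s : ℝ) * (C₀⁻¹ * (r / 2) ^ n) ≤ C₀ * (ρ + r) ^ n := by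
    calc (#s : ℝ) * (C₀⁻¹ * (r / 2) ^ n) = ∑ _w ∈ s, C₀⁻¹ * (r / 2) ^ n := by
          rw [sum_const, nsmul_eq_mul]
      _ ≤ ∑ w ∈ s, μ.real (ball w (r / 2)) := sum_le_sum hlow
      _ = μ.real (⋃ w ∈ s, ball w (r / 2)) :=
          (measureReal_biUnion_finset hdisj (fun _ _ => measurableSet_ball)
            fun w _ => hreg.fin w _).symm
      _ ≤ μ.real (ball p (ρ + r)) := measureReal_mono hsub (hreg.fin _ _)
      _ ≤ C₀ * (ρ + r) ^ n := hreg.upper p _ (by linarith)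
  rw [div_pow] at h1
  field_simp at h1
  linarith

/-- The mass of the balls of one generation near a point of an earlier one. -/
lemma count_down (hreg : Reg n C₀ μ) (T : Tree μ x₀ r₀ K) (hr : 0 < r₀)
    (hd : ENNReal.ofReal r₀ ≤ Metric.ediam μ.support) {k k' : ℕ} (hk : k ≤ K) (hk' : k' ≤ k)
    (p : Sp d) {a : ℝ} (ha : 0 ≤ a) [DecidablePred fun w : Sp d => dist w p ≤ a * sc r₀ k'] :
    (#{w ∈ T.net k | dist w p ≤ a * sc r₀ k'} : ℝ) * sc r₀ k ^ n ≤
      C₀ ^ 2 * 2 ^ n * (a + 1) ^ n * sc r₀ k' ^ n := by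
  refine (packing hreg T hr hd hk _ (filter_subset _ _) p (mul_nonneg ha (sc_pos hr k').le)
    fun w hw => (mem_filter.1 hw).2).trans ?_
  rw [mul_assoc (C₀ ^ 2 * 2 ^ n), ← mul_pow]
  have := sc_anti hr hk'
  have := sc_pos hr k
  have := sc_pos hr k'
  gcongr
  linarith

/-- Few balls of one generation are near a point. -/
lemma count_up (hreg : Reg n C₀ μ) (T : Tree μ x₀ r₀ K) (hr : 0 < r₀)
    (hd : ENNReal.ofReal r₀ ≤ Metric.ediam μ.support) {k : ℕ} (hk : k ≤ K)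
    (p : Sp d) {a : ℝ} (ha : 0 ≤ a) [DecidablePred fun w : Sp d => dist w p ≤ a * sc r₀ k] :
    (#{w ∈ T.net k | dist w p ≤ a * sc r₀ k} : ℝ) ≤ C₀ ^ 2 * 2 ^ n * (a + 1) ^ n :=
  le_of_mul_le_mul_right (count_down hreg T hr hd hk le_rfl p ha) (pow_pos (sc_pos hr k) n)

/-- The mass of one generation. -/
lemma count_net (hreg : Reg n C₀ μ) (T : Tree μ x₀ r₀ K) (hr : 0 < r₀)
    (hd : ENNReal.ofReal r₀ ≤ Metric.ediam μ.support) {k : ℕ} (hk : k ≤ K) :
    (#(T.net k) : ℝ) * sc r₀ k ^ n ≤ C₀ ^ 2 * 6 ^ n * r₀ ^ n := by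
  refine (packing hreg T hr hd hk _ subset_rfl x₀ (by linarith : (0 : ℝ) ≤ 2 * r₀)
    fun w hw => dist_root T hr hk hw).trans ?_
  rw [mul_assoc, ← mul_pow, mul_assoc, ← mul_pow]
  have := sc_pos hr k
  have := sc_le hr k
  exact mul_le_mul_of_nonneg_left (pow_le_pow_left₀ (by linarith) (by linarith) n) (sq_nonneg _)

lemma cell_le (hreg : Reg n C₀ μ) (T : Tree μ x₀ r₀ K) (hr : 0 < r₀) {k : ℕ} (hk : k ≤ K)
    {z : Sp d} (hz : z ∈ T.net k) : μ.real (T.cell k z) ≤ C₀ * 2 ^ n * sc r₀ k ^ n := by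
  rw [mul_assoc, ← mul_pow]
  exact (measureReal_mono (fun x hx => (T.subset k hk z hz hx).2) (hreg.fin _ _)).trans
    (hreg.upper z _ (by linarith [sc_pos hr k] : 0 < 2 * sc r₀ k))

lemma le_cell (hreg : Reg n C₀ μ) (T : Tree μ x₀ r₀ K) (hr : 0 < r₀)
    (hd : ENNReal.ofReal r₀ ≤ Metric.ediam μ.support) {k : ℕ} (hk : k ≤ K)
    {z : Sp d} (hz : z ∈ T.net k) : sc r₀ k ^ n ≤ C₀ * 4 ^ n * μ.real (T.cell k z) := by
  have hC : 0 < C₀ := lt_of_lt_of_le one_pos hreg.one_le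
  have hq : 0 < sc r₀ k / 4 := by linarith [sc_pos hr k]
  have h1 := hreg.lower z (T.mem k hk z hz) _ hq
    ((ENNReal.ofReal_le_ofReal (by linarith [sc_le hr k, sc_pos hr k])).trans hd)
  have h2 : μ.real (ball z (sc r₀ k / 4)) ≤ μ.real (T.cell k z) := by
    have hae : (μ.support ∩ ball z (sc r₀ k / 4) : Set (Sp d)) =ᵐ[μ] ball z (sc r₀ k / 4) :=
      inter_ae_eq_right_of_ae_eq_univ (ae_eq_univ.2 Measure.measure_compl_support)
    rw [← measureReal_congr hae]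
    exact measureReal_mono (T.inner k hk z hz)
      (measure_ne_top_of_subset (fun x hx => (T.subset k hk z hz hx).2) (hreg.fin _ _))
  have h3 := h1.trans h2
  rw [div_pow] at h3
  field_simp at h3
  linarith

/-- The cells below one cell fit into it. -/
lemma sum_cell_anc (hreg : Reg n C₀ μ) (T : Tree μ x₀ r₀ K) {j k : ℕ} (hk : k ≤ K) (hj : j ≤ k)
    {w : Sp d} (hw : w ∈ T.net (k - j)) [DecidablePred fun z : Sp d => T.anc k z j = w] :
    ∑ z ∈ T.net k with T.anc k z j = w, μ.real (T.cell k z) ≤ μ.real (T.cell (k - j) w) := by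
  have hfin : ∀ i ≤ K, ∀ z ∈ T.net i, μ (T.cell i z) ≠ ⊤ := fun i hi z hz =>
    measure_ne_top_of_subset (fun x hx => (T.subset i hi z hz hx).2) (hreg.fin _ _)
  rw [← measureReal_biUnion_finset
    ((T.disj k hk).subset (coe_subset.2 (filter_subset _ _)))
    (fun z hz => T.meas k hk z (mem_filter.1 hz).1) fun z hz => hfin k hk z (mem_filter.1 hz).1]
  refine measureReal_mono (Set.iUnion₂_subset fun z hz => ?_) (hfin _ (by omega) w hw)
  obtain ⟨hz', hw'⟩ := mem_filter.1 hz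
  exact hw' ▸ (anc_spec T j k hk hj z hz').2.2

lemma sum_geom_le (k : ℕ) : ∑ i ∈ range k, ((1 : ℝ) / 4) ^ i ≤ 2 :=
  ((summable_geometric_of_lt_one (by norm_num) (by norm_num)).sum_le_tsum _
    fun _ _ => by positivity).trans (by rw [tsum_geometric_of_lt_one] <;> norm_num)

/-- A double sum over ordered pairs of nearby cells with geometric weights. -/
noncomputable def pairSum (n : ℕ) (T : Tree μ x₀ r₀ K) (a : ℝ) (F : ℕ → Sp d → ℕ → Sp d → ℝ) : ℝ :=
  open Classical in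
  ∑ k ∈ range (K + 1), ∑ z ∈ T.net k, ∑ k' ∈ range (k + 1),
    ∑ w ∈ T.net k' with dist z w ≤ a * sc r₀ k',
      ((1 : ℝ) / 4) ^ (k - k') * (F k z k' w * sc r₀ k ^ n)

/-- The Schur bound for pairs of cells. -/
theorem schur (hreg : Reg n C₀ μ) (T : Tree μ x₀ r₀ K) (hr : 0 < r₀)
    (hd : ENNReal.ofReal r₀ ≤ Metric.ediam μ.support) {a : ℝ} (ha : 0 ≤ a)
    (f : ℕ → Sp d → ℝ) (hf : ∀ k z, 0 ≤ f k z) :
    pairSum n T a (fun k z k' w => f k z + f k' w) ≤
      4 * (C₀ ^ 2 * 2 ^ n * (a + 1) ^ n) *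
        ∑ k ∈ range (K + 1), ∑ z ∈ T.net k, f k z * sc r₀ k ^ n := by
  classical
  set N := C₀ ^ 2 * 2 ^ n * (a + 1) ^ n with hN
  set S := ∑ k ∈ range (K + 1), ∑ z ∈ T.net k, f k z * sc r₀ k ^ n
  have hsc : ∀ k, 0 ≤ sc r₀ k ^ n := fun k => (pow_pos (sc_pos hr k) n).le
  have hN0 : 0 ≤ N := by positivity
  unfold pairSum
  simp only [add_mul, mul_add, sum_add_distrib]
  have hA : (∑ k ∈ range (K + 1), ∑ z ∈ T.net k, ∑ k' ∈ range (k + 1),
      ∑ w ∈ T.net k' with dist z w ≤ a * sc r₀ k',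
        ((1 : ℝ) / 4) ^ (k - k') * (f k z * sc r₀ k ^ n)) ≤ 2 * N * S := by
    simp only [S, mul_sum]
    refine sum_le_sum fun k hk => sum_le_sum fun z _ => ?_
    have hk : k ≤ K := Nat.le_of_lt_succ (mem_range.1 hk)
    have h0 : 0 ≤ f k z * sc r₀ k ^ n := mul_nonneg (hf k z) (hsc k)
    calc (∑ k' ∈ range (k + 1), ∑ w ∈ T.net k' with dist z w ≤ a * sc r₀ k',
          ((1 : ℝ) / 4) ^ (k - k') * (f k z * sc r₀ k ^ n))
        ≤ ∑ k' ∈ range (k + 1), N * (((1 : ℝ) / 4) ^ (k - k') * (f k z * sc r₀ k ^ n)) := by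
          refine sum_le_sum fun k' hk' => ?_
          rw [sum_const, nsmul_eq_mul]
          refine mul_le_mul_of_nonneg_right ?_ (mul_nonneg (by positivity) h0)
          simp only [dist_comm z]
          exact count_up hreg T hr hd ((Nat.le_of_lt_succ (mem_range.1 hk')).trans hk) z ha
      _ = N * ((∑ k' ∈ range (k + 1), ((1 : ℝ) / 4) ^ (k - k')) * (f k z * sc r₀ k ^ n)) := by
          rw [sum_mul, mul_sum]
      _ ≤ N * (2 * (f k z * sc r₀ k ^ n)) := by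
          refine mul_le_mul_of_nonneg_left (mul_le_mul_of_nonneg_right ?_ h0) hN0
          have := sum_range_reflect (fun i => ((1 : ℝ) / 4) ^ i) (k + 1)
          simp only [Nat.add_sub_cancel] at this
          rw [this]
          exact sum_geom_le _
      _ = 2 * N * (f k z * sc r₀ k ^ n) := by ring
  have hB : (∑ k ∈ range (K + 1), ∑ z ∈ T.net k, ∑ k' ∈ range (k + 1),
      ∑ w ∈ T.net k' with dist z w ≤ a * sc r₀ k',
        ((1 : ℝ) / 4) ^ (k - k') * (f k' w * sc r₀ k ^ n)) ≤ 2 * N * S := by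
    have hsw : ∀ k ≤ K, (∑ z ∈ T.net k, ∑ k' ∈ range (k + 1),
        ∑ w ∈ T.net k' with dist z w ≤ a * sc r₀ k',
          ((1 : ℝ) / 4) ^ (k - k') * (f k' w * sc r₀ k ^ n)) ≤
        ∑ k' ∈ range (k + 1), ∑ w ∈ T.net k',
          ((1 : ℝ) / 4) ^ (k - k') * (N * (f k' w * sc r₀ k' ^ n)) := by
      intro k hk
      rw [sum_comm]
      refine sum_le_sum fun k' hk' => ?_
      simp only [sum_filter]
      rw [sum_comm]
      refine sum_le_sum fun w _ => ?_
      rw [← sum_filter, sum_const, nsmul_eq_mul]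
      have h1 := count_down hreg T hr hd hk (Nat.le_of_lt_succ (mem_range.1 hk')) w ha
      have h2 : 0 ≤ ((1 : ℝ) / 4) ^ (k - k') * f k' w := mul_nonneg (by positivity) (hf k' w)
      have h3 := mul_le_mul_of_nonneg_left h1 h2
      convert h3 using 1 <;> ring
    refine (sum_le_sum fun k hk => hsw k (Nat.le_of_lt_succ (mem_range.1 hk))).trans ?_
    simp only [S, ← mul_sum]
    rw [sum_comm' (t' := range (K + 1)) (s' := fun k' => Ico k' (K + 1))
      (fun k k' => by simp only [mem_range, mem_Ico]; omega), mul_sum]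
    refine sum_le_sum fun k' hk' => ?_
    rw [← sum_mul, sum_Ico_eq_sum_range]
    simp only [Nat.add_sub_cancel_left]
    rw [mul_assoc (2 : ℝ)]
    exact mul_le_mul_of_nonneg_right (sum_geom_le _)
      (mul_nonneg hN0 (sum_nonneg fun w _ => mul_nonneg (hf _ _) (hsc _)))
  linarith

/-- Sums over the ancestors are sums over pairs. -/
theorem anc_le_pairSum (T : Tree μ x₀ r₀ K) (hr : 0 < r₀) (f : ℕ → Sp d → ℝ)
    (hf : ∀ k z, 0 ≤ f k z) {a : ℝ} (ha : 2 ≤ a) :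
    ∑ k ∈ range (K + 1), ∑ z ∈ T.net k, ∑ i ∈ range (k + 1),
        ((1 : ℝ) / 4) ^ i * (f (k - i) (T.anc k z i) * sc r₀ k ^ n) ≤
      pairSum n T a (fun k z k' w => f k z + f k' w) := by
  classical
  refine sum_le_sum fun k hk => sum_le_sum fun z hz => ?_
  have hk : k ≤ K := Nat.le_of_lt_succ (mem_range.1 hk)
  rw [← sum_range_reflect]
  refine sum_le_sum fun k' hk' => ?_
  have hk' : k' ≤ k := Nat.le_of_lt_succ (mem_range.1 hk')
  simp only [Nat.add_sub_cancel, Nat.sub_sub_self hk']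
  have hs := sc_pos hr k
  have hs' := sc_pos hr k'
  have hmem : T.anc k z (k - k') ∈ {w ∈ T.net k' | dist z w ≤ a * sc r₀ k'} := by
    have h1 := (anc_spec T (k - k') k hk (Nat.sub_le _ _) z hz).1
    have h2 := dist_anc T hr hk (Nat.sub_le k k') hz
    rw [Nat.sub_sub_self hk'] at h1 h2
    exact mem_filter.2 ⟨h1, h2.trans (mul_le_mul_of_nonneg_right ha hs'.le)⟩
  refine le_trans ?_ (single_le_sum (fun w _ => mul_nonneg (by positivity)
    (mul_nonneg (add_nonneg (hf _ _) (hf _ _)) (pow_pos hs n).le)) hmem)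
  have := hf k z
  gcongr
  linarith

end Vale.Agent.P120.Sums
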