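import Vale.Agent.P120.Sums.Basic

/-!
# P120: families of fields over the cells: linearity, square sum, pairing
-/

open MeasureTheory Metric Finset
open scoped ENNReal RealInnerProductSpace NNReal

namespace Vale.Agent.P120.Sums

variable {n d : ℕ} {μ : Measure (Sp d)} [IsLocallyFiniteMeasure μ] {C₀ r₀ : ℝ} {x₀ : Sp d} {K : ℕ}

omit [IsLocallyFiniteMeasure μ] in
lemma pair_smul (p : Sp d) (R c : ℝ) (φ : Sp d → Sp d) :
    pair n μ p R (fun y => c • φ y) = c * pair n μ p R φ := by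
  simp only [pair, ← smul_sub, real_inner_smul_left, integral_const_mul]
  ring

lemma integrable_of_support {E : Type*} [NormedAddCommGroup E] {g : Sp d → E}
    (hc : Continuous g) {p : Sp d} {R : ℝ} (h0 : ∀ y, R ≤ dist y p → g y = 0) : Integrable g μ :=
  hc.integrable_of_hasCompactSupport
    (HasCompactSupport.intro (isCompact_closedBall p R) fun y hy => h0 y (by
      rw [mem_closedBall, not_le] at hy; exact hy.le))

omit [IsLocallyFiniteMeasure μ] in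
lemma sum_symm_le {ι : Type*} (s : Finset ι) (key : ι → ℕ) (G : ι → ι → ℝ)
    (h0 : ∀ i j, 0 ≤ G i j) (hs : ∀ i j, G i j = G j i) :
    ∑ i ∈ s, ∑ j ∈ s, G i j ≤ 2 * ∑ i ∈ s, ∑ j ∈ s with key j ≤ key i, G i j := by
  have h1 : ∀ i ∈ s, ∀ j ∈ s, G i j ≤
      (if key j ≤ key i then G i j else 0) + (if key i ≤ key j then G i j else 0) := by
    intro i _ j _
    have := h0 i j
    rcases le_total (key j) (key i) with h | h <;> simp [h] <;> split <;> linarith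
  refine (sum_le_sum fun i hi => sum_le_sum (h1 i hi)).trans (le_of_eq ?_)
  simp only [sum_add_distrib, sum_filter, two_mul]
  congr 1
  rw [sum_comm]
  exact sum_congr rfl fun i _ => sum_congr rfl fun j _ => by rw [hs]

/-- The square of the norm of a sum over all cells, from a bound on the nearby pairs. -/
theorem gram (T : Tree μ x₀ r₀ K) (hr : 0 < r₀) {A : ℝ} (hA : 0 ≤ A)
    (φ : ℕ → Sp d → Sp d → Sp d) (hc : ∀ k ≤ K, ∀ z ∈ T.net k, Continuous (φ k z))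
    (h0 : ∀ k ≤ K, ∀ z ∈ T.net k, ∀ y, A * sc r₀ k ≤ dist y z → φ k z y = 0)
    (B : ℕ → Sp d → ℕ → Sp d → ℝ)
    (hB : ∀ k ≤ K, ∀ z ∈ T.net k, ∀ k' ≤ k, ∀ w ∈ T.net k', dist z w ≤ 2 * A * sc r₀ k' →
      |∫ y, ⟪φ k z y, φ k' w y⟫ ∂μ| ≤ ((1 : ℝ) / 4) ^ (k - k') * (B k z k' w * sc r₀ k ^ n)) :
    ∫ y, ‖∑ k ∈ range (K + 1), ∑ z ∈ T.net k, φ k z y‖ ^ 2 ∂μ ≤ 2 * pairSum n T (2 * A) B := by
  classical
  set s := (range (K + 1)).sigma fun k => T.net k with hs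
  set G : (Σ _ : ℕ, Sp d) → (Σ _ : ℕ, Sp d) → ℝ := fun i j =>
    |∫ y, ⟪φ i.1 i.2 y, φ j.1 j.2 y⟫ ∂μ| with hG
  have hmem : ∀ i ∈ s, i.1 ≤ K ∧ i.2 ∈ T.net i.1 := fun i hi => by
    rw [hs, mem_sigma, mem_range] at hi
    exact ⟨Nat.le_of_lt_succ hi.1, hi.2⟩
  have hint : ∀ i ∈ s, ∀ j ∈ s, Integrable (fun y => ⟪φ i.1 i.2 y, φ j.1 j.2 y⟫) μ :=
    fun i hi j hj => integrable_of_support
      ((hc _ (hmem i hi).1 _ (hmem i hi).2).inner (hc _ (hmem j hj).1 _ (hmem j hj).2))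
      fun y hy => by rw [h0 _ (hmem i hi).1 _ (hmem i hi).2 y hy, inner_zero_left]
  have hexp : ∀ y, ‖∑ k ∈ range (K + 1), ∑ z ∈ T.net k, φ k z y‖ ^ 2 =
      ∑ i ∈ s, ∑ j ∈ s, ⟪φ i.1 i.2 y, φ j.1 j.2 y⟫ := fun y => by
    rw [hs, sum_sigma' (range (K + 1)) (fun k => T.net k) (fun k z => φ k z y),
      ← real_inner_self_eq_norm_sq, sum_inner]
    simp only [inner_sum]
  simp only [hexp]
  rw [integral_finsetSum _ fun i hi => integrable_finsetSum _ (hint i hi)]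
  refine (sum_le_sum (g := fun i => ∑ j ∈ s, G i j) fun i hi => ?_).trans ?_
  · rw [integral_finsetSum _ (hint i hi)]
    exact sum_le_sum fun j _ => le_abs_self _
  refine (sum_symm_le s (fun i => i.1) G (fun _ _ => abs_nonneg _)
    (fun i j => by simp only [hG, real_inner_comm (φ i.1 i.2 _)])).trans
    (mul_le_mul_of_nonneg_left ?_ zero_le_two)
  unfold pairSum
  rw [hs, sum_sigma]
  refine sum_le_sum fun k hk => sum_le_sum fun z hz => ?_
  simp only [mem_range] at hk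
  have hk : k ≤ K := Nat.le_of_lt_succ hk
  have hfil : ({j ∈ (range (K + 1)).sigma fun k => T.net k | j.1 ≤ k} : Finset (Σ _ : ℕ, Sp d)) =
      (range (k + 1)).sigma fun k => T.net k := by
    ext ⟨j, w⟩
    simp only [mem_filter, mem_sigma, mem_range]
    exact ⟨fun ⟨⟨_, h2⟩, h3⟩ => ⟨by omega, h2⟩, fun ⟨h1, h2⟩ => ⟨⟨by omega, h2⟩, by omega⟩⟩
  rw [hfil, sum_sigma]
  refine sum_le_sum fun k' hk' => ?_
  have hk' : k' ≤ k := Nat.le_of_lt_succ (mem_range.1 hk')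
  rw [sum_filter]
  refine sum_le_sum fun w hw => ?_
  simp only [hG]
  split
  next h => exact hB k hk z hz k' hk' w hw h
  next h =>
    refine le_of_eq ?_
    rw [abs_eq_zero]
    refine integral_eq_zero_of_ae (Filter.Eventually.of_forall fun y => ?_)
    by_cases hy : A * sc r₀ k ≤ dist y z
    · simp [h0 k hk z hz y hy]
    · have h2 : A * sc r₀ k' ≤ dist y w := by
        by_contra h3
        apply h
        have h4 := dist_triangle z y w
        rw [dist_comm z y] at h4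
        have := mul_le_mul_of_nonneg_left (sc_anti hr hk') hA
        linarith
      simp [h0 k' (hk'.trans hk) w hw y h2]

/-- The pairings of a family over the cells, summed. -/
theorem pair_sum_le (hp : PairSpec n d) (hreg : Reg n C₀ μ) (hb : RieszBounded n μ) :
    ∃ C : ℝ, 0 ≤ C ∧ ∀ (x₀ : Sp d) (r₀ : ℝ) (K : ℕ) (T : Tree μ x₀ r₀ K), 0 < r₀ →
      ∀ (A : ℝ), 0 < A → ∀ (φ : ℕ → Sp d → Sp d → Sp d) (L : ℕ → Sp d → ℝ≥0),
        (∀ k ≤ K, ∀ z ∈ T.net k, ∀ y, A * sc r₀ k ≤ dist y z → φ k z y = 0) →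
        (∀ k ≤ K, ∀ z ∈ T.net k, LipschitzWith (L k z) (φ k z)) →
        (∀ k ≤ K, ∀ z ∈ T.net k, ∫ y, φ k z y ∂μ = 0) →
        |∑ k ∈ range (K + 1), ∑ z ∈ T.net k, pair n μ z (A * sc r₀ k) (φ k z)| ≤
          C * √(((A + 2) * r₀) ^ n) *
              √(∫ y, ‖∑ k ∈ range (K + 1), ∑ z ∈ T.net k, φ k z y‖ ^ 2 ∂μ) +
            C * ∑ k ∈ range (K + 1), ∑ z ∈ T.net k, sc r₀ k / r₀ * ∫ y, ‖φ k z y‖ ∂μ := by
  classical
  obtain ⟨C, hC, hsum⟩ := (hp μ C₀ hreg).2.2 hb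
  refine ⟨C, hC, fun x₀ r₀ K T hr A hA φ L h0 hL hm => ?_⟩
  set s := (range (K + 1)).sigma fun k => T.net k with hs
  set e := s.equivFin.symm
  have hmem : ∀ i : s, i.1.1 ≤ K ∧ i.1.2 ∈ T.net i.1.1 := fun i =>
    have hi := mem_sigma.1 i.2
    ⟨Nat.le_of_lt_succ (mem_range.1 hi.1), hi.2⟩
  have key := hsum x₀ ((A + 2) * r₀) (by positivity) #s (fun i => (e i).1.2)
    (fun i => A * sc r₀ (e i).1.1) (fun i => φ (e i).1.1 (e i).1.2)
    (fun i => L (e i).1.1 (e i).1.2) (fun i => mul_pos hA (sc_pos hr _))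
    (fun i => by
      have := dist_root T hr (hmem (e i)).1 (hmem (e i)).2
      have := mul_le_mul_of_nonneg_left (sc_le hr (e i).1.1) hA.le
      linarith)
    (fun i => h0 _ (hmem (e i)).1 _ (hmem (e i)).2)
    (fun i => hL _ (hmem (e i)).1 _ (hmem (e i)).2)
    (fun i => hm _ (hmem (e i)).1 _ (hmem (e i)).2)
  have conv : ∀ {E : Type} [AddCommMonoid E] (g : ℕ → Sp d → E),
      (∑ i : Fin #s, g (e i).1.1 (e i).1.2) = ∑ k ∈ range (K + 1), ∑ z ∈ T.net k, g k z := by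
    intro E _ g
    rw [Equiv.sum_comp e (fun i : s => g i.1.1 i.1.2), sum_coe_sort s (fun i => g i.1 i.2)]
    exact sum_sigma (range (K + 1)) (fun k => T.net k) fun i => g i.1 i.2
  simp only [conv (fun k z => pair n μ z (A * sc r₀ k) (φ k z)),
    conv (fun k z => A * sc r₀ k / ((A + 2) * r₀) * ∫ y, ‖φ k z y‖ ∂μ)] at key
  have h2 : ∀ y, (∑ i : Fin #s, φ (e i).1.1 (e i).1.2 y) =
      ∑ k ∈ range (K + 1), ∑ z ∈ T.net k, φ k z y := fun y => conv fun k z => φ k z y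
  simp only [h2] at key
  refine key.trans (add_le_add le_rfl (mul_le_mul_of_nonneg_left
    (sum_le_sum fun k _ => sum_le_sum fun z _ => ?_) hC))
  refine mul_le_mul_of_nonneg_right ?_ (integral_nonneg fun y => norm_nonneg _)
  rw [div_le_div_iff₀ (by positivity) hr]
  nlinarith [mul_pos (sc_pos hr k) hr]

end Vale.Agent.P120.Sums
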