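import Vale.Agent.P120.Sums.Angle
import Vale.Agent.P120.Sums.Gram

/-!
# P120: heights against planes of least defect, and their pairings two by two
-/

open MeasureTheory Metric Finset
open scoped ENNReal RealInnerProductSpace NNReal

namespace Vale.Agent.P120.Sums

variable {n d : ℕ} {μ : Measure (Sp d)} [IsLocallyFiniteMeasure μ] {C₀ : ℝ} {p q : Sp d}
  {R S : ℝ} {e e' : Sp d}

/-- The weight of the cut off. -/
noncomputable def wt (μ : Measure (Sp d)) (p : Sp d) (R : ℝ) : ℝ := ∫ z, cutoff p R z ^ 2 ∂μ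

/-- The height before it is cut off. -/
noncomputable def slope (μ : Measure (Sp d)) (p : Sp d) (R : ℝ) (e : Sp d) (y : Sp d) : ℝ :=
  (⟪e, y⟫ - (∫ z, cutoff p R z ^ 2 * ⟪e, z⟫ ∂μ) / ∫ z, cutoff p R z ^ 2 ∂μ) / R

omit [IsLocallyFiniteMeasure μ] in
lemma height_eq (p : Sp d) (R : ℝ) (e y : Sp d) :
    height μ p R e y = cutoff p R y ^ 2 * slope μ p R e y :=
  mul_div_assoc _ _ _

lemma cutoff_nonneg (p : Sp d) (R : ℝ) (y : Sp d) : 0 ≤ cutoff p R y := le_max_left _ _

lemma cutoff_sq_le (p : Sp d) (R : ℝ) (y : Sp d) : cutoff p R y ^ 2 ≤ 1 :=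
  pow_le_one₀ (cutoff_nonneg p R y) (max_le zero_le_one (min_le_left _ _))

lemma cutoff_eq_zero (hR : 0 < R) {y : Sp d} (h : 3 / 4 * R ≤ dist y p) : cutoff p R y = 0 :=
  max_eq_left ((min_le_right _ _).trans (by rw [sub_nonpos, le_div_iff₀ hR]; linarith))

lemma cutoff_eq_one (hR : 0 < R) {y : Sp d} (h : dist y p ≤ R / 2) : cutoff p R y = 1 := by
  have : 4 * dist y p / R ≤ 2 := by rw [div_le_iff₀ hR]; linarith
  rw [cutoff, min_eq_left (by linarith), max_eq_right zero_le_one]

lemma continuous_cutoff (p : Sp d) (R : ℝ) : Continuous (cutoff p R) := by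
  unfold cutoff; fun_prop

lemma cutoff_sub_le (hR : 0 < R) (y y' : Sp d) :
    |cutoff p R y ^ 2 - cutoff p R y' ^ 2| ≤ 8 / R * dist y y' := by
  have hl := ((LipschitzWith.id (α := ℝ)).const_min 1).const_max 0
  have h1 := hl.dist_le_mul (3 - 4 * dist y p / R) (3 - 4 * dist y' p / R)
  simp only [Real.dist_eq, id_eq, NNReal.coe_one, one_mul] at h1
  have h2 : |cutoff p R y - cutoff p R y'| ≤ 4 / R * dist y y' := by
    refine h1.trans ?_
    rw [show 3 - 4 * dist y p / R - (3 - 4 * dist y' p / R) = 4 / R * (dist y' p - dist y p) by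
      ring, abs_mul, abs_of_pos (by positivity)]
    refine mul_le_mul_of_nonneg_left ?_ (by positivity)
    rw [dist_comm y y']
    exact abs_dist_sub_le _ _ _
  rw [sq_sub_sq, abs_mul]
  have h3 : |cutoff p R y + cutoff p R y'| ≤ 2 := by
    rw [abs_of_nonneg (add_nonneg (cutoff_nonneg p R y) (cutoff_nonneg p R y'))]
    have hle : ∀ x, cutoff p R x ≤ 1 := fun x => max_le zero_le_one (min_le_left _ _)
    linarith [hle y, hle y']
  refine (mul_le_mul h3 h2 (abs_nonneg _) zero_le_two).trans (le_of_eq ?_)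
  ring

lemma continuous_slope (μ : Measure (Sp d)) (p : Sp d) (R : ℝ) (e : Sp d) :
    Continuous (slope μ p R e) := by
  unfold slope; fun_prop

lemma integrableOn_ball {E : Type*} [NormedAddCommGroup E] {g : Sp d → E} (hg : Continuous g)
    (p : Sp d) (R : ℝ) : IntegrableOn g (ball p R) μ :=
  (hg.continuousOn.integrableOn_compact (isCompact_closedBall p R)).mono_set ball_subset_closedBall

lemma integrable_cutoff_mul (hR : 0 < R) {g : Sp d → ℝ} (hg : Continuous g) :
    Integrable (fun y => cutoff p R y ^ 2 * g y) μ :=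
  integrable_of_support (((continuous_cutoff p R).pow 2).mul hg) (p := p) (R := R)
    fun y hy => by rw [cutoff_eq_zero hR (by linarith)]; ring

lemma cutoff_mul_le (hR : 0 < R) {g : Sp d → ℝ} (hg : Continuous g) (h0 : ∀ y, 0 ≤ g y) :
    ∫ y, cutoff p R y ^ 2 * g y ∂μ ≤ ∫ y in ball p R, g y ∂μ := by
  rw [← integral_indicator measurableSet_ball]
  refine integral_mono_of_nonneg (.of_forall fun y => mul_nonneg (sq_nonneg _) (h0 y))
    ((integrableOn_ball hg p R).integrable_indicator measurableSet_ball) (.of_forall fun y => ?_)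
  by_cases hy : y ∈ ball p R
  · simp only [Set.indicator_of_mem hy]
    exact mul_le_of_le_one_left (h0 y) (cutoff_sq_le p R y)
  · rw [mem_ball, not_lt] at hy
    simp [cutoff_eq_zero hR (show 3 / 4 * R ≤ dist y p by linarith), hy]

lemma wt_ge (hR : 0 < R) : μ.real (ball p (R / 2)) ≤ wt μ p R := by
  refine le_trans ?_ (setIntegral_le_integral (s := ball p (R / 2))
    (by simpa using integrable_cutoff_mul (μ := μ) (p := p) hR (g := fun _ => 1) continuous_const)
    (.of_forall fun y => sq_nonneg _))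
  rw [setIntegral_congr_fun (g := fun _ => (1 : ℝ)) measurableSet_ball fun y hy => by
    rw [cutoff_eq_one hR (le_of_lt (mem_ball.1 hy))]; norm_num]
  simp

lemma wt_pos (hreg : Reg n C₀ μ) (hp : p ∈ μ.support) (hR : 0 < R) : 0 < wt μ p R :=
  lt_of_lt_of_le (ENNReal.toReal_pos
    ((Measure.mem_support_iff_forall p).1 hp _ (ball_mem_nhds p (half_pos hR))).ne' (hreg.fin _ _))
    (wt_ge hR)

omit [IsLocallyFiniteMeasure μ] in
lemma height_eq_zero (hR : 0 < R) {y : Sp d} (h : R ≤ dist y p) : height μ p R e y = 0 := by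
  rw [height_eq, cutoff_eq_zero hR (by linarith)]; ring

lemma continuous_height (μ : Measure (Sp d)) (p : Sp d) (R : ℝ) (e : Sp d) :
    Continuous (height μ p R e) := by
  simp only [funext (height_eq (μ := μ) p R e)]
  exact ((continuous_cutoff p R).pow 2).mul (continuous_slope μ p R e)

lemma integrable_height (hR : 0 < R) : Integrable (height μ p R e) μ :=
  integrable_of_support (continuous_height μ p R e) fun _ => height_eq_zero hR

lemma integral_height (hreg : Reg n C₀ μ) (hp : p ∈ μ.support) (hR : 0 < R) :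
    ∫ y, height μ p R e y ∂μ = 0 := by
  have hW : (∫ z, cutoff p R z ^ 2 ∂μ) ≠ 0 := (wt_pos hreg hp hR).ne'
  simp only [height_eq, slope]
  set c := (∫ z, cutoff p R z ^ 2 * ⟪e, z⟫ ∂μ) / ∫ z, cutoff p R z ^ 2 ∂μ with hc
  simp only [← mul_div_assoc, integral_div, mul_sub]
  rw [integral_sub (integrable_cutoff_mul hR (by fun_prop))
    (integrable_cutoff_mul hR continuous_const), integral_mul_const, hc,
    mul_div_cancel₀ _ hW]
  simp

lemma abs_slope_le (hreg : Reg n C₀ μ) (hp : p ∈ μ.support) (hR : 0 < R) (he : ‖e‖ ≤ 1) {y : Sp d}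
    (hy : dist y p ≤ R) : |slope μ p R e y| ≤ 2 := by
  have hW := wt_pos hreg hp hR
  unfold wt at hW
  have hin : ∀ x, |⟪e, x⟫ - ⟪e, p⟫| ≤ dist x p := fun x => by
    rw [← inner_sub_right, dist_eq_norm]
    exact (abs_real_inner_le_norm _ _).trans (mul_le_of_le_one_left (norm_nonneg _) he)
  have hc : |(∫ z, cutoff p R z ^ 2 * ⟪e, z⟫ ∂μ) / (∫ z, cutoff p R z ^ 2 ∂μ) - ⟪e, p⟫| ≤ R := by
    rw [div_sub' hW.ne', abs_div, abs_of_pos hW, div_le_iff₀ hW, mul_comm _ ⟪e, p⟫,
      ← integral_const_mul, ← integral_const_mul R,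
      ← integral_sub (integrable_cutoff_mul hR (by fun_prop))
        ((show Integrable (fun z => cutoff p R z ^ 2) μ by
          simpa using integrable_cutoff_mul (μ := μ) (p := p) hR (g := fun _ => 1)
            continuous_const).const_mul _)]
    refine abs_integral_le_integral_abs.trans (integral_mono_of_nonneg
      (.of_forall fun z => abs_nonneg _) ((show Integrable (fun z => cutoff p R z ^ 2) μ by
          simpa using integrable_cutoff_mul (μ := μ) (p := p) hR (g := fun _ => 1)
            continuous_const).const_mul R) (.of_forall fun z => ?_))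
    simp only
    rw [show cutoff p R z ^ 2 * ⟪e, z⟫ - ⟪e, p⟫ * cutoff p R z ^ 2 =
      cutoff p R z ^ 2 * (⟪e, z⟫ - ⟪e, p⟫) by ring, abs_mul, abs_of_nonneg (sq_nonneg _)]
    rcases le_or_gt (3 / 4 * R) (dist z p) with h | h
    · simp [cutoff_eq_zero hR h]
    · rw [mul_comm R]
      exact mul_le_mul_of_nonneg_left ((hin z).trans (by linarith)) (sq_nonneg _)
  rw [slope, abs_div, abs_of_pos hR, div_le_iff₀ hR]
  have h1 := abs_le.1 ((hin y).trans hy)
  have h2 := abs_le.1 hc
  rw [abs_le]
  constructor <;> linarith [h1.1, h1.2, h2.1, h2.2]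

lemma abs_height_le (hreg : Reg n C₀ μ) (hp : p ∈ μ.support) (hR : 0 < R) (he : ‖e‖ ≤ 1)
    (y : Sp d) : |height μ p R e y| ≤ 2 := by
  rcases le_or_gt R (dist y p) with h | h
  · simp [height_eq_zero hR h]
  · rw [height_eq, abs_mul, abs_of_nonneg (sq_nonneg _)]
    exact (mul_le_of_le_one_left (abs_nonneg _) (cutoff_sq_le p R y)).trans
      (abs_slope_le hreg hp hR he h.le)

lemma lipschitz_height (hreg : Reg n C₀ μ) (hp : p ∈ μ.support) (hR : 0 < R) (he : ‖e‖ ≤ 1)
    (y y' : Sp d) : |height μ p R e y - height μ p R e y'| ≤ 17 / R * dist y y' := by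
  have key : ∀ y y', dist y p ≤ R →
      |height μ p R e y - height μ p R e y'| ≤ 17 / R * dist y y' := fun y y' hy => by
    have h1 := abs_slope_le hreg hp hR he hy
    have h2 := cutoff_sub_le (p := p) hR y y'
    have h3 : |slope μ p R e y - slope μ p R e y'| ≤ 1 / R * dist y y' := by
      rw [slope, slope, ← sub_div, sub_sub_sub_cancel_right, ← inner_sub_right, abs_div,
        abs_of_pos hR, div_le_iff₀ hR, dist_eq_norm]
      refine (abs_real_inner_le_norm _ _).trans
        ((mul_le_of_le_one_left (norm_nonneg _) he).trans_eq ?_)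
      field_simp
    rw [height_eq, height_eq, show cutoff p R y ^ 2 * slope μ p R e y -
      cutoff p R y' ^ 2 * slope μ p R e y' = (cutoff p R y ^ 2 - cutoff p R y' ^ 2) *
        slope μ p R e y + cutoff p R y' ^ 2 * (slope μ p R e y - slope μ p R e y') by ring]
    refine (abs_add_le _ _).trans ?_
    rw [abs_mul, abs_mul, abs_of_nonneg (sq_nonneg (cutoff p R y'))]
    have h4 := mul_le_mul h2 h1 (abs_nonneg _) (by positivity)
    have h5 := mul_le_mul (cutoff_sq_le p R y') h3 (abs_nonneg _) zero_le_one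
    have h6 : 8 / R * dist y y' * 2 + 1 * (1 / R * dist y y') = 17 / R * dist y y' := by ring
    linarith
  rcases le_or_gt (dist y p) R with h | h
  · exact key y y' h
  rcases le_or_gt (dist y' p) R with h' | h'
  · rw [abs_sub_comm, dist_comm]; exact key y' y h'
  rw [height_eq_zero hR h.le, height_eq_zero hR h'.le, sub_zero, abs_zero]
  positivity

variable [Nonempty (Plane n d)]

/-- A selected direction: zero, or normal to the best plane below the diameter. -/
def Sel (n : ℕ) [Nonempty (Plane n d)] (μ : Measure (Sp d)) (p : Sp d) (R : ℝ) (e : Sp d) : Prop :=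
  e = 0 ∨ ENNReal.ofReal R ≤ Metric.ediam μ.support ∧ e ∈ (bestPlane (n := n) μ p R).normals

omit [IsLocallyFiniteMeasure μ] in
lemma Sel.norm_le (h : Sel n μ p R e) : ‖e‖ ≤ 1 := by
  rcases h with rfl | ⟨-, h, -⟩ <;> simp [*]

omit [IsLocallyFiniteMeasure μ] in
lemma Sel.proj_eq (h : Sel n μ p R e) : proj (bestPlane (n := n) μ p R) e = 0 := by
  rcases h with rfl | ⟨-, -, h⟩ <;> simp [proj, *]

lemma defect_eq (hpl : PlaneSpec n d) (hreg : Reg n C₀ μ) (hR : 0 < R)
    (hd : ENNReal.ofReal R ≤ Metric.ediam μ.support) :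
    ∫ y in ball p R, (‖(bestPlane (n := n) μ p R).nrm y‖ / R) ^ 2 ∂μ =
      flatness n μ p R ^ 2 * R ^ n := by
  obtain ⟨hb1, hb2⟩ := (hpl μ C₀ hreg).1 p R hR
  set L := bestPlane (n := n) μ p R
  have hnn : ∀ L' : Plane n d, 0 ≤ defect n μ p R L' := fun L' =>
    div_nonneg (integral_nonneg fun y => sq_nonneg _) (by positivity)
  have : Nonempty {L : Plane n d // dist L.base p ≤ R} := ⟨⟨L, hb1⟩⟩
  have h : (⨅ L : {L : Plane n d // dist L.base p ≤ R}, defect n μ p R L) = defect n μ p R L :=
    le_antisymm (ciInf_le (f := fun L' : {L : Plane n d // dist L.base p ≤ R} => defect n μ p R L')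
      ⟨0, Set.forall_mem_range.2 fun L' => hnn _⟩ ⟨L, hb1⟩)
      (le_ciInf fun L' => hb2 L'.1 L'.2)
  rw [flatness, if_pos hd, h, Real.sq_sqrt (hnn _), defect]
  field_simp

lemma slope_sq_le (hpl : PlaneSpec n d) (hreg : Reg n C₀ μ) (hR : 0 < R) (hp : p ∈ μ.support)
    (he : Sel n μ p R e) :
    ∫ y in ball p R, slope μ p R e y ^ 2 ∂μ ≤
      (2 + 2 * C₀ ^ 2 * 2 ^ n) * (flatness n μ p R ^ 2 * R ^ n) := by
  have hC : 0 < C₀ := lt_of_lt_of_le one_pos hreg.one_le
  rcases he with rfl | ⟨hd, he1, he2⟩
  · simp only [slope, inner_zero_left, mul_zero, integral_zero, zero_div, sub_self,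
      ne_eq, OfNat.ofNat_ne_zero, not_false_eq_true, zero_pow]
    exact mul_nonneg (by positivity) (mul_nonneg (sq_nonneg _) (by positivity))
  rw [← defect_eq hpl hreg hR hd]
  set L := bestPlane (n := n) μ p R
  set v : Sp d → ℝ := fun y => ⟪e, y - L.base⟫ / R with hv
  have hvc : Continuous v := by fun_prop
  set δ : ℝ := ((∫ z, cutoff p R z ^ 2 * ⟪e, z⟫ ∂μ) / (∫ z, cutoff p R z ^ 2 ∂μ) - ⟪e, L.base⟫) / R
    with hδ
  have hu : ∀ y, slope μ p R e y = v y - δ := fun y => by
    simp only [slope, hv, hδ, inner_sub_right]; ring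
  set F := ∫ y in ball p R, (‖L.nrm y‖ / R) ^ 2 ∂μ
  have hvle : ∫ y in ball p R, v y ^ 2 ∂μ ≤ F := by
    refine setIntegral_mono_on (integrableOn_ball (hvc.pow 2) p R)
      (integrableOn_ball (by unfold Plane.nrm; fun_prop) p R) measurableSet_ball fun y _ => ?_
    have h : ⟪e, y - L.base⟫ = ⟪e, L.nrm y⟫ := by
      simp [Plane.nrm, inner_sub_right, inner_sum, real_inner_smul_right,
        fun i => (real_inner_comm (L.frame i) e).trans (he2 i)]
    rw [hv, ← sq_abs, abs_div, abs_of_pos hR, h]
    refine pow_le_pow_left₀ (by positivity) (div_le_div_of_nonneg_right ?_ hR.le) 2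
    exact (abs_real_inner_le_norm _ _).trans_eq (by rw [he1, one_mul])
  have h0 := integral_height (e := e) hreg hp hR
  simp only [height_eq, hu, mul_sub] at h0
  rw [integral_sub (integrable_cutoff_mul hR hvc) (integrable_cutoff_mul hR continuous_const),
    integral_mul_const] at h0
  have h1 : 0 ≤ ∫ y, cutoff p R y ^ 2 * (v y - δ) ^ 2 ∂μ :=
    integral_nonneg fun y => mul_nonneg (sq_nonneg _) (sq_nonneg _)
  have hexp : ∀ y, cutoff p R y ^ 2 * (v y - δ) ^ 2 =
      cutoff p R y ^ 2 * v y ^ 2 - 2 * δ * (cutoff p R y ^ 2 * v y) +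
        cutoff p R y ^ 2 * δ ^ 2 := fun y => by ring
  have hi1 : Integrable (fun y => cutoff p R y ^ 2 * v y ^ 2) μ :=
    integrable_cutoff_mul hR (hvc.pow 2)
  have hi2 : Integrable (fun y => 2 * δ * (cutoff p R y ^ 2 * v y)) μ :=
    (integrable_cutoff_mul hR hvc).const_mul _
  have hi3 : Integrable (fun y => cutoff p R y ^ 2 * δ ^ 2) μ :=
    integrable_cutoff_mul hR continuous_const
  simp only [hexp] at h1
  rw [integral_add (hi1.sub' hi2) hi3, integral_sub hi1 hi2, integral_const_mul,
    integral_mul_const] at h1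
  have h2 := (cutoff_mul_le (μ := μ) (p := p) hR (hvc.pow 2) fun y => sq_nonneg _).trans hvle
  have hlow := (hreg.lower p hp _ (half_pos hR)
    ((ENNReal.ofReal_le_ofReal (by linarith)).trans hd)).trans (wt_ge hR)
  unfold wt at hlow
  have h3 : μ.real (ball p R) * δ ^ 2 ≤ C₀ ^ 2 * 2 ^ n * F := by
    have h4 : C₀⁻¹ * (R / 2) ^ n * δ ^ 2 ≤ F := by
      refine (mul_le_mul_of_nonneg_right hlow (sq_nonneg δ)).trans ?_
      simp only [Pi.pow_apply] at h2
      have h5 := congrArg (δ * ·) h0
      simp only [mul_zero] at h5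
      linarith
    refine (mul_le_mul_of_nonneg_right (hreg.upper p R hR) (sq_nonneg δ)).trans
      (le_trans (le_of_eq ?_) (mul_le_mul_of_nonneg_left h4 (by positivity)))
    rw [div_pow R 2]
    field_simp
  refine (setIntegral_mono_on (g := fun y => 2 * v y ^ 2 + 2 * δ ^ 2)
    (integrableOn_ball ((continuous_slope μ p R e).pow 2) p R)
    (integrableOn_ball (by fun_prop) p R) measurableSet_ball fun y _ => ?_).trans ?_
  · simp only [Pi.pow_apply, hu]; nlinarith [sq_nonneg (v y + δ)]
  · rw [integral_add (integrableOn_ball (by fun_prop) p R) (integrableOn_ball (by fun_prop) p R),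
      integral_const_mul, setIntegral_const, smul_eq_mul]
    linarith

/-- The product of two heights of one scale. -/
lemma cross_same (hR : 0 < R) :
    |∫ y, height μ p R e y * height μ q R e' y ∂μ| ≤
      (∫ y in ball p R, slope μ p R e y ^ 2 ∂μ) + ∫ y in ball q R, slope μ q R e' y ^ 2 ∂μ := by
  have hsq : ∀ (p e : Sp d) (y : Sp d),
      height μ p R e y ^ 2 ≤ (ball p R).indicator (fun y => slope μ p R e y ^ 2) y := fun p e y => by
    by_cases hy : y ∈ ball p R
    · rw [Set.indicator_of_mem hy, height_eq, mul_pow]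
      exact mul_le_of_le_one_left (sq_nonneg _)
        (pow_le_one₀ (sq_nonneg _) (cutoff_sq_le p R y))
    · rw [Set.indicator_of_notMem hy, height_eq_zero hR (by simpa using hy)]; norm_num
  have hi : ∀ p e : Sp d,
      Integrable ((ball p R).indicator fun y => slope μ p R e y ^ 2) μ := fun p e =>
    (integrableOn_ball ((continuous_slope μ p R e).pow 2) p R).integrable_indicator measurableSet_ball
  rw [← integral_indicator measurableSet_ball, ← integral_indicator measurableSet_ball,
    ← integral_add (hi p e) (hi q e')]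
  refine abs_integral_le_integral_abs.trans (integral_mono_of_nonneg
    (.of_forall fun y => abs_nonneg _) ((hi p e).add (hi q e')) (.of_forall fun y => ?_))
  simp only [abs_mul]
  nlinarith [hsq p e y, hsq q e' y, sq_abs (height μ p R e y), sq_abs (height μ q R e' y),
    sq_nonneg (|height μ p R e y| - |height μ q R e' y|), abs_nonneg (height μ p R e y),
    abs_nonneg (height μ q R e' y)]

/-- A height of a small ball against one of a large ball: the gain of the ratio of the scales. -/
lemma cross_le (hpl : PlaneSpec n d) (hreg : Reg n C₀ μ) (hR : 0 < R) (hp : p ∈ μ.support)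
    (hd : ENNReal.ofReal R ≤ Metric.ediam μ.support) (he : Sel n μ p R e) (hS : 8 * R ≤ S)
    (he' : ‖e'‖ ≤ 1) :
    |∫ y, height μ p R e y * height μ q S e' y ∂μ| ≤ R / S *
      ((13 + 12 * C₀ ^ 2 * 2 ^ n) * (flatness n μ p R ^ 2 * R ^ n) +
        C₀ * R ^ n * ‖proj (bestPlane (n := n) μ p R) e'‖ ^ 2 +
        4 * ∫ y in ball p R ∩ ball q S, slope μ q S e' y ^ 2 ∂μ) := by
  have hS0 : 0 < S := by linarith
  set L := bestPlane (n := n) μ p R
  set τ := ‖proj L e'‖
  set a := cutoff q S p ^ 2
  set u := slope μ p R e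
  set u' := slope μ q S e'
  set K : ℝ := a * ((⟪e', L.base⟫ -
    (∫ z, cutoff q S z ^ 2 * ⟪e', z⟫ ∂μ) / ∫ z, cutoff q S z ^ 2 ∂μ) / S) with hK
  set g : Sp d → ℝ := fun y => (cutoff q S y ^ 2 - a) * u' y + a * (⟪e', y - L.base⟫ / S) with hg
  have hsplit : ∀ y, height μ q S e' y = g y + K := fun y => by
    simp only [height_eq, hg, hK, u', slope, inner_sub_right]; ring
  have hgc : Continuous g :=
    (((continuous_cutoff q S).pow 2).sub continuous_const |>.mul (continuous_slope μ q S e')).add
      (by fun_prop)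
  have hig : Integrable (fun y => height μ p R e y * g y) μ :=
    integrable_of_support ((continuous_height μ p R e).mul hgc) (p := p) (R := R)
      fun y hy => by rw [height_eq_zero hR hy, zero_mul]
  simp only [hsplit, mul_add]
  rw [integral_add hig ((integrable_height hR).mul_const K), integral_mul_const,
    integral_height hreg hp hR, zero_mul, add_zero]
  set F : Sp d → ℝ := fun y => 6 * u y ^ 2 + (‖L.nrm y‖ / R) ^ 2 + τ ^ 2
  have hFc : Continuous F :=
    ((continuous_const.mul ((continuous_slope μ p R e).pow 2)).add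
      (by unfold Plane.nrm; fun_prop)).add continuous_const
  have hiF : Integrable ((ball p R).indicator F) μ :=
    (integrableOn_ball hFc p R).integrable_indicator measurableSet_ball
  have hmeas : MeasurableSet (ball p R ∩ ball q S) := measurableSet_ball.inter measurableSet_ball
  have hiu : Integrable ((ball p R ∩ ball q S).indicator fun y => u' y ^ 2) μ :=
    (((integrableOn_ball ((continuous_slope μ q S e').pow 2) q S)).mono_set
      Set.inter_subset_right).integrable_indicator hmeas
  have hbound : ∀ y, |height μ p R e y * g y| ≤ R / S * ((ball p R).indicator F y +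
      4 * (ball p R ∩ ball q S).indicator (fun y => u' y ^ 2) y) := by
    intro y
    by_cases hy : y ∈ ball p R
    swap
    · simp [height_eq_zero hR (show R ≤ dist y p by simpa using hy), Set.indicator_of_notMem hy,
        Set.indicator_of_notMem (show y ∉ ball p R ∩ ball q S from fun h => hy h.1)]
    rw [Set.indicator_of_mem hy]
    have hy' : dist y p < R := hy
    have hh : |height μ p R e y| ≤ |u y| := by
      rw [height_eq, abs_mul, abs_of_nonneg (sq_nonneg _)]
      exact mul_le_of_le_one_left (abs_nonneg _) (cutoff_sq_le p R y)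
    have hrs : 0 ≤ R / S := by positivity
    have h1 : |cutoff q S y ^ 2 - a| * |u' y| * |u y| ≤
        R / S * (4 * u y ^ 2 + 4 * (ball p R ∩ ball q S).indicator (fun y => u' y ^ 2) y) := by
      have hz : 0 ≤ (ball p R ∩ ball q S).indicator (fun y => u' y ^ 2) y :=
        Set.indicator_nonneg (fun _ _ => sq_nonneg _) _
      by_cases hyq : y ∈ ball q S
      · rw [Set.indicator_of_mem (Set.mem_inter hy hyq)]
        have h := (cutoff_sub_le (p := q) hS0 y p).trans
          (mul_le_mul_of_nonneg_left hy'.le (by positivity))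
        refine (mul_le_mul_of_nonneg_right (mul_le_mul_of_nonneg_right h (abs_nonneg _))
          (abs_nonneg _)).trans ?_
        rw [show 8 / S * R * |u' y| * |u y| = R / S * (8 * (|u' y| * |u y|)) by ring]
        refine mul_le_mul_of_nonneg_left ?_ hrs
        nlinarith [sq_abs (u y), sq_abs (u' y), sq_nonneg (|u y| - |u' y|)]
      · rw [mem_ball, not_lt] at hyq
        have hpq : 3 / 4 * S ≤ dist p q := by
          linarith [dist_triangle y p q]
        rw [show a = cutoff q S p ^ 2 from rfl, cutoff_eq_zero hS0 (by linarith),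
          cutoff_eq_zero hS0 hpq]
        rw [sub_self, abs_zero, zero_mul, zero_mul]
        positivity
    have h2 : a * (|⟪e', y - L.base⟫| / S) * |u y| ≤
        R / S * (2 * u y ^ 2 + (‖L.nrm y‖ / R) ^ 2 + τ ^ 2) := by
      have hyb : ‖y - L.base‖ ≤ 2 * R := by
        rw [← dist_eq_norm]
        linarith [dist_triangle y p L.base, ((hpl μ C₀ hreg).1 p R hR).1, dist_comm p L.base]
      have hin : |⟪e', y - L.base⟫| ≤ ‖L.nrm y‖ + τ * (2 * R) := by
        have h : y - L.base = L.nrm y + proj L (y - L.base) := (sub_add_cancel _ _).symm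
        rw [h, inner_add_right, ← inner_proj_comm]
        exact (abs_add_le _ _).trans (add_le_add
          ((abs_real_inner_le_norm _ _).trans (mul_le_of_le_one_left (norm_nonneg _) he'))
          ((abs_real_inner_le_norm _ _).trans (mul_le_mul_of_nonneg_left hyb (norm_nonneg _))))
      calc a * (|⟪e', y - L.base⟫| / S) * |u y|
          ≤ 1 * ((‖L.nrm y‖ + τ * (2 * R)) / S) * |u y| := by
            gcongr
            exact cutoff_sq_le q S p
        _ = R / S * ((‖L.nrm y‖ / R + 2 * τ) * |u y|) := by field_simp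
        _ ≤ _ := by
            refine mul_le_mul_of_nonneg_left ?_ hrs
            nlinarith [sq_abs (u y), sq_nonneg (|u y| - ‖L.nrm y‖ / R), sq_nonneg (|u y| - τ)]
    rw [abs_mul]
    refine (mul_le_mul hh (abs_add_le _ _) (abs_nonneg _) (abs_nonneg _)).trans ?_
    rw [abs_mul, abs_mul, abs_div, abs_of_pos hS0, abs_of_nonneg (show 0 ≤ a from sq_nonneg _)]
    simp only [F]
    nlinarith
  refine (abs_integral_le_integral_abs.trans (integral_mono_of_nonneg
    (.of_forall fun y => abs_nonneg _) ((hiF.add (hiu.const_mul 4)).const_mul (R / S))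
    (.of_forall hbound))).trans ?_
  rw [integral_const_mul, ← mul_add, ← mul_add]
  refine mul_le_mul_of_nonneg_left ?_ (div_pos hR hS0).le
  simp only [Pi.add_apply]
  rw [integral_add hiF (hiu.const_mul 4), integral_const_mul, integral_indicator hmeas,
    integral_indicator measurableSet_ball]
  refine add_le_add ?_ le_rfl
  have i1 : IntegrableOn (fun y => 6 * u y ^ 2) (ball p R) μ :=
    integrableOn_ball (continuous_const.mul ((continuous_slope μ p R e).pow 2)) p R
  have i2 : IntegrableOn (fun y => (‖L.nrm y‖ / R) ^ 2) (ball p R) μ :=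
    integrableOn_ball (by unfold Plane.nrm; fun_prop) p R
  have i3 : IntegrableOn (fun y => 6 * u y ^ 2 + (‖L.nrm y‖ / R) ^ 2) (ball p R) μ := i1.add i2
  simp only [F]
  rw [integral_add i3 (integrableOn_ball continuous_const p R), integral_add i1 i2,
    integral_const_mul, setIntegral_const, smul_eq_mul, defect_eq hpl hreg hR hd]
  have h1 := slope_sq_le hpl hreg hR hp he
  have h2 := mul_le_mul_of_nonneg_right (hreg.upper p R hR) (sq_nonneg τ)
  linarith

end Vale.Agent.P120.Sums
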