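import Vale.Agent.P120.Sums.Gram
import Mathlib.MeasureTheory.Integral.Bochner.ContinuousLinearMap

/-!
# P120: boundedness bounds the squared tests over cells
-/

open MeasureTheory Metric Finset
open scoped ENNReal RealInnerProductSpace NNReal

namespace Vale.Agent.P120

open Sums

variable {n d : ℕ}

theorem testSum (hp : PairSpec n d) : TestSumSpec n d := by
  intro μ _ C₀ hreg hb M
  obtain ⟨⟨Cp, hCp, hpb⟩, -, -⟩ := hp μ C₀ hreg
  obtain ⟨Cs, hCs, hps⟩ := pair_sum_le hp hreg hb
  have hC0 : 0 < C₀ := lt_of_lt_of_le one_pos hreg.one_le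
  -- constants
  set m : ℝ := (M : ℝ) + 1 with hm
  have hm0 : 0 < m := by positivity
  set A : ℝ := m * 16 with hA
  have hA0 : 0 < A := by positivity
  set cb : ℝ := Cp * (m ^ 2 + 1) * m ^ n with hcb
  set N : ℝ := C₀ ^ 2 * 2 ^ n * (2 * A + 1) ^ n with hN
  set P : ℝ := (16 ^ n)⁻¹ * (4 * N) * (m ^ 2 * C₀ * A ^ n) * 2 with hP
  set E : ℝ := Cs * (cb * (C₀ * A ^ n) * (C₀ ^ 2 * 6 ^ n) * 2) with hE
  refine ⟨4 * C₀ * 2 ^ n / 16 ^ n * (Cs ^ 2 * (A + 2) ^ n * P + 2 * E), by positivity,
    fun x₀ hx₀ r₀ hr hd K T => ?_⟩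
  classical
  -- one test for each cell
  have hsel : ∀ k z, ∃ φ : Sp d → Sp d, k ≤ K → z ∈ T.net k → IsTest μ M z (cellRad r₀ k) φ ∧
      bT n μ M z (cellRad r₀ k) ≤ 2 * (|pair n μ z (A * sc r₀ k) φ| / cellRad r₀ k ^ n) ∧
      0 ≤ bT n μ M z (cellRad r₀ k) ∧
      |pair n μ z (A * sc r₀ k) φ| / cellRad r₀ k ^ n ≤ cb := by
    intro k z
    by_cases h : k ≤ K ∧ z ∈ T.net k
    swap
    · exact ⟨0, fun h1 h2 => absurd ⟨h1, h2⟩ h⟩
    set R := cellRad r₀ k with hR
    have hR0 : 0 < R := cellRad_pos hr k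
    have hrad : (M + 1 : ℝ) * R = A * sc r₀ k := by rw [hR, cellRad_eq, hA, hm]; ring
    set S := {t | ∃ φ, IsTest μ M z R φ ∧ t = |pair n μ z ((M + 1) * R) φ| / R ^ n} with hS
    have h0 : IsTest μ M z R 0 :=
      ⟨fun _ _ => rfl, fun _ => by simp, (LipschitzWith.const 0).weaken zero_le, by simp⟩
    have hub : ∀ φ, IsTest μ M z R φ → |pair n μ z ((M + 1) * R) φ| / R ^ n ≤ cb := by
      rintro φ ⟨h1, h2, h3, h4⟩
      rw [div_le_iff₀ (pow_pos hR0 n), hcb]
      refine (hpb z (T.mem k h.1 z h.2) ((M + 1) * R) 1 _ φ (by positivity) h1 h2 h3 h4).trans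
        (le_of_eq ?_)
      rw [Real.coe_toNNReal _ (by positivity), hm, mul_pow]
      field_simp
    have hbdd : BddAbove S := ⟨cb, by rintro t ⟨φ, hφ, rfl⟩; exact hub φ hφ⟩
    have hmem : |pair n μ z ((M + 1) * R) 0| / R ^ n ∈ S := ⟨0, h0, rfl⟩
    have hnn : 0 ≤ sSup S := le_trans (by positivity) (le_csSup hbdd hmem)
    rcases hnn.eq_or_lt with he | hlt
    · refine ⟨0, fun _ _ => ⟨h0, ?_, hnn, hrad ▸ hub 0 h0⟩⟩
      show sSup S ≤ _
      rw [← he]; positivity
    · obtain ⟨t, ⟨φ, hφ, rfl⟩, ht⟩ := exists_lt_of_lt_csSup ⟨_, hmem⟩ (half_lt_self hlt)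
      refine ⟨φ, fun _ _ => ⟨hφ, ?_, hnn, hrad ▸ hub φ hφ⟩⟩
      show sSup S ≤ _
      rw [← hrad]
      linarith
  choose φ hφ using hsel
  set c : ℕ → Sp d → ℝ := fun k z => pair n μ z (A * sc r₀ k) (φ k z) / cellRad r₀ k ^ n with hc
  set ψ : ℕ → Sp d → Sp d → Sp d := fun k z y => c k z • φ k z y with hψ
  set Q : ℝ := ∑ k ∈ range (K + 1), ∑ z ∈ T.net k, c k z ^ 2 * cellRad r₀ k ^ n with hQ
  have hsn : ∀ k, 0 < sc r₀ k ^ n := fun k => pow_pos (sc_pos hr k) n
  have hRn : ∀ k, cellRad r₀ k ^ n = 16 ^ n * sc r₀ k ^ n := fun k => by rw [cellRad_eq, mul_pow]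
  have habs : ∀ k ≤ K, ∀ z ∈ T.net k,
      |c k z| = |pair n μ z (A * sc r₀ k) (φ k z)| / cellRad r₀ k ^ n := fun k _ z _ => by
    simp only [hc]
    rw [abs_div, abs_of_pos (pow_pos (cellRad_pos hr k) n)]
  have hsupp : ∀ k ≤ K, ∀ z ∈ T.net k, ∀ y, A * sc r₀ k ≤ dist y z → φ k z y = 0 :=
    fun k hk z hz y hy => (hφ k z hk hz).1.1 y (by
      have h1 : (M + 1 : ℝ) * (16 * sc r₀ k) = A * sc r₀ k := by rw [hA, hm]; ring
      rw [cellRad_eq, h1]
      exact hy)
  have hball : ∀ k ≤ K, ∀ z ∈ T.net k, ∫ y, ‖φ k z y‖ ∂μ ≤ C₀ * A ^ n * sc r₀ k ^ n := by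
    intro k hk z hz
    have hu := hreg.upper z (A * sc r₀ k) (mul_pos hA0 (sc_pos hr k))
    rw [mul_pow, ← mul_assoc] at hu
    refine le_trans ?_ hu
    rw [← setIntegral_eq_integral_of_forall_compl_eq_zero (s := ball z (A * sc r₀ k))
      fun y hy => by rw [hsupp k hk z hz y (not_lt.1 hy), norm_zero]]
    refine (Real.le_norm_self _).trans ((norm_setIntegral_le_of_norm_le_const (C := 1)
      (lt_top_iff_ne_top.2 (hreg.fin _ _)) fun y _ => ?_).trans_eq (one_mul _))
    simpa using (hφ k z hk hz).1.2.1 y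
  -- square sum
  have hL2 : ∫ y, ‖∑ k ∈ range (K + 1), ∑ z ∈ T.net k, ψ k z y‖ ^ 2 ∂μ ≤ P * Q := by
    refine (gram (n := n) T hr hA0.le ψ
      (fun k hk z hz => (hφ k z hk hz).1.2.2.1.continuous.const_smul (c k z))
      (fun k hk z hz y hy => by simp [hψ, hsupp k hk z hz y hy])
      (fun k z k' w => m ^ 2 * C₀ * A ^ n * c k z ^ 2 + m ^ 2 * C₀ * A ^ n * c k' w ^ 2)
      fun k hk z hz k' hk' w hw _ => ?_).trans ?_
    · have hk'K := hk'.trans hk
      obtain ⟨-, hb1, hl1, hm1⟩ := (hφ k z hk hz).1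
      obtain ⟨-, hb2, hl2, -⟩ := (hφ k' w hk'K hw).1
      have hint : ∀ v : Sp d, Integrable (fun y => ⟪φ k z y, v⟫) μ := fun v =>
        integrable_of_support (hl1.continuous.inner continuous_const)
          fun y hy => by rw [hsupp k hk z hz y hy, inner_zero_left]
      have hint2 : Integrable (fun y => ⟪φ k z y, φ k' w y⟫) μ :=
        integrable_of_support (hl1.continuous.inner hl2.continuous)
          fun y hy => by rw [hsupp k hk z hz y hy, inner_zero_left]
      have hzero : ∫ y, ⟪φ k z y, φ k' w z⟫ ∂μ = 0 := by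
        have h := (innerSL ℝ (φ k' w z)).integral_comp_comm
          (integrable_of_support (μ := μ) hl1.continuous (hsupp k hk z hz))
        simp only [innerSL_apply_apply, hm1, inner_zero_right] at h
        simpa only [real_inner_comm (φ k' w z)] using h
      have hG : |∫ y, ⟪φ k z y, φ k' w y⟫ ∂μ| ≤
          m ^ 2 * ((1 : ℝ) / 4) ^ (k - k') * (C₀ * A ^ n * sc r₀ k ^ n) := by
        rw [← sub_zero (∫ y, ⟪φ k z y, φ k' w y⟫ ∂μ), ← hzero, ← integral_sub hint2 (hint _)]
        refine (abs_integral_le_integral_abs).trans (le_trans ?_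
          (mul_le_mul_of_nonneg_left (hball k hk z hz) (by positivity)))
        rw [← integral_const_mul]
        refine integral_mono_of_nonneg (Filter.Eventually.of_forall fun y => abs_nonneg _)
          ((integrable_of_support hl1.continuous (hsupp k hk z hz)).norm.const_mul _)
          (Filter.Eventually.of_forall fun y => ?_)
        simp only [← inner_sub_right]
        refine (abs_real_inner_le_norm _ _).trans ?_
        by_cases hy : A * sc r₀ k ≤ dist y z
        · simp [hsupp k hk z hz y hy]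
        refine (mul_le_mul_of_nonneg_left ?_ (norm_nonneg _)).trans_eq (mul_comm _ _)
        have hl := hl2.dist_le_mul y z
        rw [dist_eq_norm, Real.coe_toNNReal _ (by have := cellRad_pos hr k'; positivity)] at hl
        refine hl.trans ?_
        have hr' := sc_pos hr k'
        rw [cellRad_eq, div_mul_eq_mul_div, div_le_iff₀ (by positivity)]
        calc (M + 1 : ℝ) * dist y z ≤ m * (A * sc r₀ k) :=
              mul_le_mul_of_nonneg_left (not_le.1 hy).le (by positivity)
          _ = m ^ 2 * ((1 : ℝ) / 8) ^ (k - k') * (16 * sc r₀ k') := by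
              rw [sc_eq r₀ hk', hA, one_div_pow]; ring
          _ ≤ _ := by
              gcongr
              norm_num
      simp only [hψ, real_inner_smul_left, real_inner_smul_right, integral_const_mul, abs_mul]
      refine le_trans ?_ (mul_le_mul_of_nonneg_left (mul_le_mul_of_nonneg_right
        (show m ^ 2 * C₀ * A ^ n * (|c k z| * |c k' w|) ≤ _ from ?_) (hsn k).le)
        (by positivity))
      · refine le_of_le_of_eq (show _ ≤ |c k' w| * (|c k z| *
          (m ^ 2 * ((1 : ℝ) / 4) ^ (k - k') * (C₀ * A ^ n * sc r₀ k ^ n))) by gcongr) (by ring)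
      · rw [← mul_add]
        refine mul_le_mul_of_nonneg_left ?_ (by positivity)
        nlinarith [sq_abs (c k z), sq_abs (c k' w), sq_nonneg (|c k z| - |c k' w|),
          mul_nonneg (abs_nonneg (c k z)) (abs_nonneg (c k' w))]
    · refine (mul_le_mul_of_nonneg_left (schur hreg T hr hd (by positivity)
        (fun k z => m ^ 2 * C₀ * A ^ n * c k z ^ 2) fun k z => by positivity)
        zero_le_two).trans (le_of_eq ?_)
      simp only [hP, hQ, hRn, mul_sum]
      refine sum_congr rfl fun k _ => sum_congr rfl fun z _ => ?_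
      field_simp
      ring
  -- the pairing
  have hpairs : ∑ k ∈ range (K + 1), ∑ z ∈ T.net k, pair n μ z (A * sc r₀ k) (ψ k z) = Q :=
    sum_congr rfl fun k _ => sum_congr rfl fun z _ => by
      rw [hψ, pair_smul]
      simp only [hc]
      field_simp [(pow_pos (cellRad_pos hr k) n).ne']
  have hsum := hps x₀ r₀ K T hr A hA0 ψ
    (fun k z => ‖c k z‖₊ * Real.toNNReal ((M + 1) / cellRad r₀ k))
    (fun k hk z hz y hy => by simp [hψ, hsupp k hk z hz y hy])
    (fun k hk z hz => LipschitzWith.of_dist_le_mul fun y y' => by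
      simp only [hψ, dist_eq_norm, ← smul_sub, norm_smul, NNReal.coe_mul, coe_nnnorm, mul_assoc]
      gcongr
      simpa [dist_eq_norm] using ((hφ k z hk hz).1.2.2.1).dist_le_mul y y')
    (fun k hk z hz => by rw [hψ, integral_smul, (hφ k z hk hz).1.2.2.2, smul_zero])
  rw [hpairs] at hsum
  have herr : Cs * ∑ k ∈ range (K + 1), ∑ z ∈ T.net k, sc r₀ k / r₀ * ∫ y, ‖ψ k z y‖ ∂μ
      ≤ E * r₀ ^ n := by
    rw [hE, mul_assoc Cs]
    refine mul_le_mul_of_nonneg_left ?_ hCs
    calc (∑ k ∈ range (K + 1), ∑ z ∈ T.net k, sc r₀ k / r₀ * ∫ y, ‖ψ k z y‖ ∂μ)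
        ≤ ∑ k ∈ range (K + 1), ((1 : ℝ) / 4) ^ k *
            (cb * (C₀ * A ^ n) * (C₀ ^ 2 * 6 ^ n * r₀ ^ n)) := by
          refine sum_le_sum fun k hk => ?_
          have hk : k ≤ K := Nat.le_of_lt_succ (mem_range.1 hk)
          refine (sum_le_sum (g := fun _ => ((1 : ℝ) / 4) ^ k * (cb * (C₀ * A ^ n) * sc r₀ k ^ n))
            fun z hz => ?_).trans ?_
          · simp only [hψ, norm_smul, integral_const_mul, Real.norm_eq_abs]
            refine mul_le_mul ?_ ?_ (mul_nonneg (abs_nonneg _) (integral_nonneg fun y => norm_nonneg _))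
              (by positivity)
            · rw [sc, div_div, mul_comm, ← div_div, div_self hr.ne', one_div_pow]
              exact one_div_le_one_div_of_le (by positivity)
                (pow_le_pow_left₀ (by norm_num) (by norm_num) k)
            · rw [mul_assoc cb]
              refine mul_le_mul ?_ (hball k hk z hz) (integral_nonneg fun y => norm_nonneg _)
                (by positivity)
              rw [habs k hk z hz]
              exact (hφ k z hk hz).2.2.2
          · rw [sum_const, nsmul_eq_mul]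
            refine le_of_eq_of_le (by ring : (#(T.net k) : ℝ) * _ =
              ((1 : ℝ) / 4) ^ k * (cb * (C₀ * A ^ n) * ((#(T.net k) : ℝ) * sc r₀ k ^ n))) ?_
            refine mul_le_mul_of_nonneg_left (mul_le_mul_of_nonneg_left
              (count_net hreg T hr hd hk) (by positivity)) (by positivity)
      _ ≤ 2 * (cb * (C₀ * A ^ n) * (C₀ ^ 2 * 6 ^ n * r₀ ^ n)) := by
          rw [← sum_mul]
          exact mul_le_mul_of_nonneg_right (sum_geom_le _) (by positivity)
      _ = _ := by ring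
  have hQ0 : 0 ≤ Q := sum_nonneg fun k _ => sum_nonneg fun z _ =>
    mul_nonneg (sq_nonneg _) (pow_pos (cellRad_pos hr k) n).le
  have hQb : Q ≤ (Cs ^ 2 * (A + 2) ^ n * P + 2 * E) * r₀ ^ n := by
    have h1 := (le_abs_self Q).trans (hsum.trans (add_le_add
      (mul_le_mul_of_nonneg_left (Real.sqrt_le_sqrt hL2) (by positivity)) herr))
    set a := Cs * √(((A + 2) * r₀) ^ n) with ha
    have hP0 : 0 ≤ P := by positivity
    have h2 : a * √(P * Q) ≤ a ^ 2 * P / 2 + Q / 2 := by
      have hq := Real.sq_sqrt (mul_nonneg hP0 hQ0)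
      rw [Real.sqrt_mul hP0]
      nlinarith [sq_nonneg (a * √P - √Q), Real.sq_sqrt hP0, Real.sq_sqrt hQ0]
    have h3 : a ^ 2 = Cs ^ 2 * ((A + 2) ^ n * r₀ ^ n) := by
      rw [ha, mul_pow, Real.sq_sqrt (by positivity), mul_pow]
    rw [h3] at h2
    linarith
  calc (∑ k ∈ range (K + 1), ∑ z ∈ T.net k,
        bT n μ M z (cellRad r₀ k) ^ 2 * μ.real (T.cell k z))
      ≤ 4 * C₀ * 2 ^ n / 16 ^ n * Q := by
        simp only [hQ, mul_sum]
        refine sum_le_sum fun k hk => sum_le_sum fun z hz => ?_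
        have hk : k ≤ K := Nat.le_of_lt_succ (mem_range.1 hk)
        obtain ⟨-, h1, h2, -⟩ := hφ k z hk hz
        rw [← habs k hk z hz] at h1
        have h3 : bT n μ M z (cellRad r₀ k) ^ 2 ≤ 4 * c k z ^ 2 := by
          have := pow_le_pow_left₀ h2 h1 2
          rw [mul_pow, sq_abs] at this
          linarith
        refine (mul_le_mul h3 (cell_le hreg T hr hk hz) measureReal_nonneg (by positivity)).trans
          (le_of_eq ?_)
        rw [hRn]
        field_simp
    _ ≤ 4 * C₀ * 2 ^ n / 16 ^ n * ((Cs ^ 2 * (A + 2) ^ n * P + 2 * E) * r₀ ^ n) :=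
        mul_le_mul_of_nonneg_left hQb (by positivity)
    _ = _ := by ring

end Vale.Agent.P120
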